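import Vale.Agent.P361.Spin

/-!
The finite-volume magnon bound.
-/

open Matrix Finset

namespace Vale.Agent.P361

variable {n N : ℕ}

/-- `∑ c_x S^+_x`. -/
noncomputable def waveOp (n : ℕ) {N : ℕ} (c : Site N → ℂ) :
    Matrix (Config n N) (Config n N) ℂ :=
  ∑ x, c x • opP x

theorem sum_atSite_comm (c : Site N → ℂ) (M X : Matrix (Fin (n+1)) (Fin (n+1)) ℂ) (x : Site N) :
    (∑ z, c z • atSite z M) * atSite x X - atSite x X * (∑ z, c z • atSite z M) =
      c x • atSite x (M * X - X * M) := by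
  rw [sum_mul, mul_sum, ← sum_sub_distrib, sum_eq_single x]
  · rw [Matrix.smul_mul, Matrix.mul_smul, atSite_mul, atSite_mul, ← smul_sub, atSite_sub]
  · intro z _ hz
    rw [Matrix.smul_mul, Matrix.mul_smul, atSite_comm hz, sub_self]
  · simp

theorem waveOp_conjTranspose (c : Site N → ℂ) :
    (waveOp n c)ᴴ = ∑ x, star (c x) • opQ x := by
  simp [waveOp, conjTranspose_sum, opP_conjTranspose]

theorem waveOp_comm_opP (c : Site N → ℂ) (x : Site N) :
    waveOp n c * opP x - opP x * waveOp n c = 0 := by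
  rw [waveOp]
  exact (sum_atSite_comm c (spinPlus n) (spinPlus n) x).trans (by simp [sub_self, atSite, ← Matrix.ext_iff])

theorem waveOp_comm_opQ (c : Site N → ℂ) (x : Site N) :
    waveOp n c * opQ x - opQ x * waveOp n c = (2 * c x) • opZ x := by
  refine (sum_atSite_comm c (spinPlus n) (spinMinus n) x).trans ?_
  rw [spinPlus_spinMinus_comm, atSite_smul, smul_smul, mul_comm]
  rfl

theorem waveOp_comm_opZ (c : Site N → ℂ) (x : Site N) :
    waveOp n c * opZ x - opZ x * waveOp n c = (-c x) • opP x := by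
  refine (sum_atSite_comm c (spinPlus n) (spin3 n) x).trans ?_
  rw [show spinPlus n * spin3 n - spin3 n * spinPlus n = -spinPlus n by
    rw [← neg_sub, spin3_mul_spinPlus], atSite_neg, smul_neg, neg_smul]
  rfl

theorem waveOpH_comm_opP (c : Site N → ℂ) (x : Site N) :
    opP (n := n) x * (waveOp n c)ᴴ - (waveOp n c)ᴴ * opP x = (2 * star (c x)) • opZ x := by
  rw [waveOp_conjTranspose, ← neg_sub]
  rw [show (∑ z, star (c z) • opQ (n := n) z) * opP x - opP x * ∑ z, star (c z) • opQ z =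
    star (c x) • atSite x (spinMinus n * spinPlus n - spinPlus n * spinMinus n)
    from sum_atSite_comm (fun z => star (c z)) (spinMinus n) (spinPlus n) x]
  rw [← neg_sub (spinPlus n * spinMinus n), spinPlus_spinMinus_comm, atSite_neg, atSite_smul,
    smul_neg, neg_neg, smul_smul, mul_comm]
  rfl

theorem waveOpH_comm_opZ (c : Site N → ℂ) (x : Site N) :
    opZ (n := n) x * (waveOp n c)ᴴ - (waveOp n c)ᴴ * opZ x = (-star (c x)) • opQ x := by
  rw [waveOp_conjTranspose, ← neg_sub]
  rw [show (∑ z, star (c z) • opQ (n := n) z) * opZ x - opZ x * ∑ z, star (c z) • opQ z =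
    star (c x) • atSite x (spinMinus n * spin3 n - spin3 n * spinMinus n)
    from sum_atSite_comm (fun z => star (c z)) (spinMinus n) (spin3 n) x]
  rw [← neg_sub (spin3 n * spinMinus n), spin3_mul_spinMinus, neg_neg, neg_smul]
  rfl

/-- The double commutator `[[A, X], Aᴴ]`. -/
noncomputable def dcomm {ι : Type*} [Fintype ι] (A X : Matrix ι ι ℂ) : Matrix ι ι ℂ :=
  (A * X - X * A) * Aᴴ - Aᴴ * (A * X - X * A)

theorem dcomm_add {ι : Type*} [Fintype ι] (A X Y : Matrix ι ι ℂ) :
    dcomm A (X + Y) = dcomm A X + dcomm A Y := by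
  simp only [dcomm, Matrix.mul_add, Matrix.add_mul, Matrix.mul_sub, Matrix.sub_mul]
  abel

theorem dcomm_smul {ι : Type*} [Fintype ι] (A X : Matrix ι ι ℂ) (r : ℂ) :
    dcomm A (r • X) = r • dcomm A X := by
  simp only [dcomm, Matrix.mul_smul, Matrix.smul_mul, ← smul_sub]

theorem dcomm_sum {ι α : Type*} [Fintype ι] [Fintype α] (A : Matrix ι ι ℂ)
    (f : α → Matrix ι ι ℂ) : dcomm A (∑ a, f a) = ∑ a, dcomm A (f a) := by
  simp only [dcomm, Matrix.mul_sum, Matrix.sum_mul, ← sum_sub_distrib]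

theorem dcomm_spinDot (c : Site N → ℂ) (x y : Site N) :
    dcomm (waveOp n c) (spinDot x y) = (c x - c y) • ((-star (c x)) • (opQ x * opP y)
      + (2 * star (c y) - 2 * star (c x)) • (opZ x * opZ y) + star (c y) • (opP x * opQ y)) := by
  set A := waveOp n c with hA
  have lb : ∀ X Y : Matrix (Config n N) (Config n N) ℂ,
      A * (X * Y) - X * Y * A = (A * X - X * A) * Y + X * (A * Y - Y * A) := fun X Y => by
    noncomm_ring
  have rb : ∀ X Y : Matrix (Config n N) (Config n N) ℂ,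
      X * Y * Aᴴ - Aᴴ * (X * Y) = X * (Y * Aᴴ - Aᴴ * Y) + (X * Aᴴ - Aᴴ * X) * Y := fun X Y => by
    noncomm_ring
  have hW : A * spinDot x y - spinDot x y * A =
      (c x - c y) • (opZ x * opP y - opP x * opZ y) := by
    rw [spinDot_eq]
    simp only [Matrix.mul_add, Matrix.add_mul, Matrix.mul_smul, Matrix.smul_mul]
    have e1 := lb (opP x) (opQ y)
    have e2 := lb (opQ x) (opP y)
    have e3 := lb (opZ x) (opZ y)
    rw [waveOp_comm_opP, waveOp_comm_opQ] at e1 e2
    rw [waveOp_comm_opZ, waveOp_comm_opZ] at e3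
    rw [sub_eq_iff_eq_add] at e1 e2 e3
    rw [e1, e2, e3]
    simp only [Matrix.zero_mul, Matrix.mul_zero, Matrix.mul_smul, Matrix.smul_mul]
    module
  rw [dcomm, hW, Matrix.smul_mul, Matrix.mul_smul, ← smul_sub]
  congr 1
  have e1 := rb (opZ x) (opP y)
  have e2 := rb (opP x) (opZ y)
  rw [waveOpH_comm_opP, waveOpH_comm_opZ] at e1 e2
  rw [sub_eq_iff_eq_add] at e1 e2
  simp only [Matrix.mul_sub, Matrix.sub_mul]
  rw [e1, e2]
  simp only [Matrix.mul_smul, Matrix.smul_mul]
  module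

theorem waveOp_comm_adjoint (c : Site N → ℂ) (hc : ∀ x, c x * star (c x) = 1) :
    waveOp n c * (waveOp n c)ᴴ - (waveOp n c)ᴴ * waveOp n c = (2 : ℂ) • totalSpin3 n N := by
  conv_lhs => rw [waveOp_conjTranspose]
  rw [mul_sum, sum_mul, ← sum_sub_distrib, totalSpin3, smul_sum]
  refine sum_congr rfl fun x _ => ?_
  rw [Matrix.mul_smul, Matrix.smul_mul, ← smul_sub, waveOp_comm_opQ, smul_smul,
    show star (c x) * (2 * c x) = 2 by linear_combination 2 * hc x]
  rfl

theorem dcomm_totalSpin3 (c : Site N → ℂ) (hc : ∀ x, c x * star (c x) = 1) :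
    dcomm (waveOp n c) (totalSpin3 n N) = (-2 : ℂ) • totalSpin3 n N := by
  have h : waveOp n c * totalSpin3 n N - totalSpin3 n N * waveOp n c = -waveOp n c := by
    rw [totalSpin3, mul_sum, sum_mul, ← sum_sub_distrib]
    simp only [waveOp, ← sum_neg_distrib]
    refine sum_congr rfl fun x _ => ?_
    rw [← neg_smul]
    exact waveOp_comm_opZ c x
  rw [dcomm, h, Matrix.neg_mul, Matrix.mul_neg, ← neg_sub_neg, neg_neg, neg_neg,
    ← neg_sub, waveOp_comm_adjoint c hc, neg_smul]

/-- A plane wave with phase `φ`. -/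
noncomputable def phase {N : ℕ} (φ : Site N → ℝ) (x : Site N) : ℂ :=
  Complex.exp ((φ x : ℂ) * Complex.I)

theorem phase_star (φ : Site N → ℝ) (x : Site N) : star (phase φ x) = phase (fun y => -φ y) x := by
  simp only [phase, Complex.star_def, ← Complex.exp_conj]
  simp

theorem phase_mul_star (φ : Site N → ℝ) (x : Site N) : phase φ x * star (phase φ x) = 1 := by
  rw [phase_star, phase, phase, ← Complex.exp_add]
  simp

theorem phase_cross (φ : Site N → ℝ) (x y : Site N) :
    phase φ x * star (phase φ y) + star (phase φ x) * phase φ y =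
      ((2 * Real.cos (φ x - φ y) : ℝ) : ℂ) := by
  rw [phase_star, phase_star]
  simp only [phase, ← Complex.exp_add]
  push_cast
  rw [Complex.two_cos]
  congr 2 <;> ring

theorem dcomm_spinDot_pair (φ : Site N → ℝ) (x y : Site N) :
    dcomm (waveOp n (phase φ)) (spinDot x y) +
      dcomm (waveOp n (fun z => star (phase φ z))) (spinDot x y) =
      ((-(2 * (2 - 2 * Real.cos (φ x - φ y))) : ℝ) : ℂ) •
        (spinDot x y + opZ x * opZ y) := by
  rw [dcomm_spinDot, dcomm_spinDot, spinDot_eq]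
  have hx := phase_mul_star φ x
  have hy := phase_mul_star φ y
  have h := phase_cross φ x y
  simp only [star_star]
  generalize phase φ x = a at *
  generalize phase φ y = b at *
  generalize opQ (n := n) x * opP y = U
  generalize opP (n := n) x * opQ y = V
  generalize opZ (n := n) x * opZ y = W
  simp only [smul_add, smul_smul]
  match_scalars <;> push_cast at h ⊢
  · linear_combination (-2 : ℂ) * hx + h
  · linear_combination (-4 : ℂ) * hx + (-4 : ℂ) * hy + 4 * h
  · linear_combination (-2 : ℂ) * hy + h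

theorem adj_exists {x y : Site N} (h : Adj x y) :
    ∃ j, |((x j : ℕ) : ℤ) - ((y j : ℕ) : ℤ)| = 1 ∧ ∀ l, l ≠ j → x l = y l := by
  unfold Adj at h
  obtain ⟨j, hj⟩ : ∃ j, ((x j : ℕ) : ℤ) - ((y j : ℕ) : ℤ) ≠ 0 := by
    by_contra hc
    push Not at hc
    simp [hc] at h
  have h1 := add_sum_erase univ (fun l => |((x l : ℕ) : ℤ) - ((y l : ℕ) : ℤ)|) (mem_univ j)
  have h2 : 0 ≤ ∑ l ∈ univ.erase j, |((x l : ℕ) : ℤ) - ((y l : ℕ) : ℤ)| :=
    sum_nonneg fun l _ => abs_nonneg _
  have h3 := Int.one_le_abs hj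
  simp only [h] at h1
  refine ⟨j, by linarith, fun l hl => ?_⟩
  have h4 : ∑ l ∈ univ.erase j, |((x l : ℕ) : ℤ) - ((y l : ℕ) : ℤ)| = 0 := by linarith
  have h5 := (sum_eq_zero_iff_of_nonneg fun l _ => abs_nonneg _).mp h4 l
    (mem_erase.mpr ⟨hl, mem_univ l⟩)
  rw [abs_eq_zero, sub_eq_zero] at h5
  exact Fin.ext (by exact_mod_cast h5)

theorem sum_adj_le (x : Site N) (f : Site N → ℝ) (g : Fin 3 → ℝ) (hg : ∀ j, 0 ≤ g j)
    (hf : ∀ y j, |((x j : ℕ) : ℤ) - ((y j : ℕ) : ℤ)| = 1 → (∀ l, l ≠ j → x l = y l) → f y ≤ g j) :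
    ∑ y, (if Adj x y then f y else 0) ≤ ∑ j, 2 * g j := by
  classical
  let P : Site N → Fin 3 → Prop := fun y j =>
    |((x j : ℕ) : ℤ) - ((y j : ℕ) : ℤ)| = 1 ∧ ∀ l, l ≠ j → x l = y l
  have h1 : ∀ y, (if Adj x y then f y else 0) ≤ ∑ j, if P y j then g j else 0 := by
    intro y
    split_ifs with h
    · obtain ⟨j, hj⟩ := adj_exists h
      refine (hf y j hj.1 hj.2).trans ?_
      refine le_of_eq_of_le ?_ (single_le_sum (f := fun j => if P y j then g j else 0)
        (fun l _ => by split_ifs <;> simp [hg l]) (mem_univ j))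
      simp [P, hj.1]; exact fun l hl hne => absurd (hj.2 l hl) hne
    · exact sum_nonneg fun l _ => by split_ifs <;> simp [hg l]
  refine (sum_le_sum fun y _ => h1 y).trans ?_
  rw [sum_comm]
  refine sum_le_sum fun j _ => ?_
  rw [← sum_filter, sum_const, nsmul_eq_mul]
  refine mul_le_mul_of_nonneg_right ?_ (hg j)
  have hcard : (univ.filter fun y => P y j).card ≤ 2 := by
    refine le_trans (card_le_card_of_injOn (t := ({((x j : ℕ) : ℤ) - 1, ((x j : ℕ) : ℤ) + 1} :
      Finset ℤ)) (fun y => ((y j : ℕ) : ℤ)) ?_ ?_) card_le_two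
    · intro y hy
      simp only [coe_filter, mem_univ, true_and, Set.mem_ofPred_eq, P] at hy
      rcases abs_eq (by norm_num : (0:ℤ) ≤ 1) |>.mp hy.1 with h | h
      · simp; omega
      · simp; omega
    · intro y hy y' hy' h
      simp only [coe_filter, mem_univ, true_and, Set.mem_ofPred_eq, P] at hy hy'
      funext l
      rcases eq_or_ne l j with rfl | hl
      · exact Fin.ext (Nat.cast_injective (R := ℤ) h)
      · rw [← hy.2 l hl, hy'.2 l hl]
  exact_mod_cast hcard

/-- Momentum `2π k / L`. -/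
noncomputable def momentum {N : ℕ} (k : Site N) (j : Fin 3) : ℝ :=
  2 * Real.pi * ((k j : ℕ) : ℝ) / (2 * N + 1)

/-- The phase `k·x`. -/
noncomputable def kdot {N : ℕ} (k x : Site N) : ℝ := ∑ j, momentum k j * ((x j : ℕ) : ℝ)

/-- `∑_j (1 - cos k_j)`. -/
noncomputable def dispersion {N : ℕ} (k : Site N) : ℝ := ∑ j, (1 - Real.cos (momentum k j))

theorem cos_kdot_sub (k x y : Site N) (j : Fin 3)
    (h1 : |((x j : ℕ) : ℤ) - ((y j : ℕ) : ℤ)| = 1) (h2 : ∀ l, l ≠ j → x l = y l) :
    Real.cos (kdot k x - kdot k y) = Real.cos (momentum k j) := by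
  have e : kdot k x - kdot k y = momentum k j * (((x j : ℕ) : ℝ) - ((y j : ℕ) : ℝ)) := by
    rw [kdot, kdot, ← sum_sub_distrib, sum_eq_single j]
    · ring
    · intro l _ hl; rw [h2 l hl]; ring
    · simp
  rw [e]
  rcases abs_eq (by norm_num : (0:ℤ) ≤ 1) |>.mp h1 with h | h
  · have h' : ((x j : ℕ) : ℝ) - ((y j : ℕ) : ℝ) = 1 := by exact_mod_cast h
    rw [h', mul_one]
  · have h' : ((x j : ℕ) : ℝ) - ((y j : ℕ) : ℝ) = -1 := by exact_mod_cast h
    rw [h', mul_neg_one, Real.cos_neg]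

/-- Expectation of the total magnetization per site. -/
noncomputable def magN (n N : ℕ) (β h : ℝ) : ℝ :=
  gexp (expo_isHermitian (n := n) (N := N) β h) (totalSpin3 n N) / (Fintype.card (Site N) : ℝ)

theorem card_site_pos : (0 : ℝ) < (Fintype.card (Site N) : ℝ) := by
  exact_mod_cast Fintype.card_pos

theorem neg_expo (β h : ℝ) :
    -expo n N β h = (β : ℂ) • ((-(1/2 : ℂ)) • (∑ x, ∑ y, if Adj x y then spinDot x y else 0)
      + (-(h : ℂ)) • totalSpin3 n N) := by
  rw [expo, hamiltonian, neg_smul (h : ℂ), ← sub_eq_add_neg, ← neg_smul]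
  congr 1
  simp

theorem dsum_le (β h : ℝ) (hβ : 0 ≤ β) (k : Site N) :
    gexp (expo_isHermitian (n := n) (N := N) β h)
        (dcomm (waveOp n (phase (kdot k))) (-expo n N β h)) +
      gexp (expo_isHermitian (n := n) (N := N) β h)
        (dcomm (waveOp n (fun z => star (phase (kdot k) z))) (-expo n N β h)) ≤
      β * (8 * ((n : ℝ) / 2) ^ 2 * (Fintype.card (Site N) : ℝ) * dispersion k +
        4 * h * gexp (expo_isHermitian (n := n) (N := N) β h) (totalSpin3 n N)) := by
  set hK := expo_isHermitian (n := n) (N := N) β h with hhK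
  have hc := phase_mul_star (kdot k)
  have hc' : ∀ x, star (phase (kdot k) x) * star (star (phase (kdot k) x)) = 1 := fun x => by
    rw [star_star, mul_comm]; exact hc x
  have hite : ∀ (A : Matrix (Config n N) (Config n N) ℂ) (x y : Site N),
      dcomm A (if Adj x y then spinDot x y else 0) =
        if Adj x y then dcomm A (spinDot x y) else 0 := fun A x y => by
    split_ifs <;> simp [dcomm]
  rw [← gexp_add, neg_expo]
  simp only [dcomm_smul, dcomm_add, dcomm_sum, hite, dcomm_totalSpin3 _ hc,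
    dcomm_totalSpin3 _ hc', ← smul_add]
  rw [gexp_smul]
  refine mul_le_mul_of_nonneg_left ?_ hβ
  rw [show ∀ a b c d : Matrix (Config n N) (Config n N) ℂ, a + b + (c + d) = (a + c) + (b + d)
    from fun a b c d => by abel]
  rw [← smul_add, ← sum_add_distrib]
  simp only [← sum_add_distrib, smul_smul, ← add_smul]
  rw [gexp_add, show (-(1/2 : ℂ)) = ((-(1/2) : ℝ) : ℂ) by simp,
    show (-(h:ℂ) * -2 + -(h:ℂ) * -2) = ((4 * h : ℝ) : ℂ) by push_cast; ring,
    gexp_smul, gexp_smul, gexp_sum]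
  simp only [gexp_sum]
  refine add_le_add ?_ (le_refl _)
  calc -(1/2) * ∑ x, ∑ y, gexp hK ((if Adj x y then dcomm (waveOp n (phase (kdot k)))
          (spinDot x y) else 0) + if Adj x y then dcomm (waveOp n (fun z =>
          star (phase (kdot k) z))) (spinDot x y) else 0)
      = ∑ x, ∑ y, if Adj x y then (2 - 2 * Real.cos (kdot k x - kdot k y)) *
          (gexp hK (spinDot x y) + gexp hK (opZ x * opZ y)) else 0 := by
        rw [mul_sum]
        refine sum_congr rfl fun x _ => ?_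
        rw [mul_sum]
        refine sum_congr rfl fun y _ => ?_
        split_ifs
        · rw [dcomm_spinDot_pair, gexp_smul, gexp_add]; ring
        · simp [gexp_zero]
    _ ≤ ∑ _x : Site N, ∑ j, 2 * ((2 - 2 * Real.cos (momentum k j)) * (2 * ((n:ℝ)/2) ^ 2)) := by
        refine sum_le_sum fun x _ => ?_
        refine le_trans (sum_le_sum fun y _ => ?_) (sum_adj_le x
          (fun y => (2 - 2 * Real.cos (kdot k x - kdot k y)) * (2 * ((n:ℝ)/2) ^ 2))
          (fun j => (2 - 2 * Real.cos (momentum k j)) * (2 * ((n:ℝ)/2) ^ 2))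
          (fun j => mul_nonneg (by linarith [Real.cos_le_one (momentum k j)]) (by positivity))
          (fun y j h1 h2 => by rw [cos_kdot_sub k x y j h1 h2]))
        split_ifs with hadj
        · refine mul_le_mul_of_nonneg_left ?_
            (by linarith [Real.cos_le_one (kdot k x - kdot k y)])
          linarith [gexp_spinDot_le hadj.ne hK, gexp_zz_le (x := x) (y := y) hK]
        · exact le_refl _
    _ = 8 * ((n : ℝ) / 2) ^ 2 * (Fintype.card (Site N) : ℝ) * dispersion k := by
        rw [sum_const, card_univ, nsmul_eq_mul, dispersion, mul_sum, mul_sum]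
        exact sum_congr rfl fun j _ => by ring

theorem planck_ge_series {a : ℝ} (ha : 0 < a) (J : ℕ) :
    ∑ j ∈ range J, Real.exp (-(((j : ℝ) + 1) * a)) ≤ 1 / (Real.exp a - 1) := by
  set r := Real.exp (-a) with hr
  have hr0 : 0 < r := Real.exp_pos _
  have e : ∀ j : ℕ, Real.exp (-(((j : ℝ) + 1) * a)) = r ^ (j + 1) := fun j => by
    rw [hr, ← Real.exp_nat_mul]; push_cast; ring_nf
  have ea : Real.exp a = 1 / r := by rw [hr, Real.exp_neg]; simp
  have hd : 0 < Real.exp a - 1 := sub_pos.mpr (Real.one_lt_exp_iff.mpr ha)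
  rw [le_div_iff₀ hd, ea]
  simp only [e, pow_succ, ← sum_mul]
  rw [show (∑ j ∈ range J, r ^ j) * r * (1 / r - 1) = (∑ j ∈ range J, r ^ j) * (1 - r) by
    field_simp, geom_sum_mul_neg]
  linarith [pow_pos hr0 J]

theorem magnon_pair (β h m : ℝ) (hβ : 0 < β) (hh : 0 < h) (hm : 0 < m)
    (hmN : m ≤ magN n N β h) (k : Site N) (J : ℕ) :
    4 * (Fintype.card (Site N) : ℝ) * m * ∑ j ∈ range J,
        Real.exp (-(((j:ℝ) + 1) * (β * (2 * ((n:ℝ)/2) ^ 2 * dispersion k / m + h)))) ≤
      gexp (expo_isHermitian (n := n) (N := N) β h)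
          ((waveOp n (phase (kdot k)))ᴴ * waveOp n (phase (kdot k))) +
        gexp (expo_isHermitian (n := n) (N := N) β h)
          ((waveOp n (fun z => star (phase (kdot k) z)))ᴴ *
            waveOp n (fun z => star (phase (kdot k) z))) := by
  set hK := expo_isHermitian (n := n) (N := N) β h with hhK
  set L := (Fintype.card (Site N) : ℝ) with hL
  have hL0 : 0 < L := card_site_pos
  set G := gexp hK (totalSpin3 n N) with hG
  have hG' : L * m ≤ G := by
    rw [magN, ← hhK, ← hG, ← hL, le_div_iff₀ hL0] at hmN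
    linarith
  have hG0 : 0 < G := lt_of_lt_of_le (mul_pos hL0 hm) hG'
  have hdis : 0 ≤ dispersion k := sum_nonneg fun j _ => sub_nonneg.mpr (Real.cos_le_one _)
  have hc := phase_mul_star (kdot k)
  have hc' : ∀ x, star (phase (kdot k) x) * star (star (phase (kdot k) x)) = 1 := fun x => by
    rw [star_star, mul_comm]; exact hc x
  have h1 := roepstorff hK
    (fun b : Bool => if b then waveOp n (phase (kdot k))
      else waveOp n (fun z => star (phase (kdot k) z)))
    (4 * G) (β * (8 * ((n : ℝ) / 2) ^ 2 * L * dispersion k + 4 * h * G))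
    (by
      simp only [Fintype.sum_bool, if_true, waveOp_comm_adjoint _ hc, Bool.false_eq_true,
        if_false, waveOp_comm_adjoint _ hc']
      rw [show (2 : ℂ) = ((2 : ℝ) : ℂ) by simp, gexp_smul, ← hG]
      ring)
    (by positivity)
    (by
      simp only [Fintype.sum_bool, if_true, Bool.false_eq_true, if_false]
      exact dsum_le β h hβ.le k)
  simp only [Fintype.sum_bool, if_true, Bool.false_eq_true, if_false] at h1
  refine le_trans ?_ h1
  set a := β * (8 * ((n : ℝ) / 2) ^ 2 * L * dispersion k + 4 * h * G) / (4 * G) with ha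
  set a' := β * (2 * ((n:ℝ)/2) ^ 2 * dispersion k / m + h) with ha'
  have ha0 : 0 < a := by positivity
  have ha0' : 0 < a' := by positivity
  have hle : a ≤ a' := by
    rw [ha, ha', div_le_iff₀ (by positivity)]
    have h2 : L ≤ G / m := by rw [le_div_iff₀ hm]; exact hG'
    have h3 := mul_le_mul_of_nonneg_left h2
      (show (0:ℝ) ≤ β * 8 * ((n : ℝ) / 2) ^ 2 * dispersion k by positivity)
    calc β * (8 * ((n:ℝ) / 2) ^ 2 * L * dispersion k + 4 * h * G)
        ≤ β * 8 * ((n : ℝ) / 2) ^ 2 * dispersion k * (G / m) + β * (4 * h * G) := by linarith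
      _ = β * (2 * ((n:ℝ) / 2) ^ 2 * dispersion k / m + h) * (4 * G) := by ring
  have hd : 0 < Real.exp a - 1 := sub_pos.mpr (Real.one_lt_exp_iff.mpr ha0)
  calc 4 * L * m * ∑ j ∈ range J, Real.exp (-(((j:ℝ) + 1) * a'))
      ≤ 4 * L * m * ∑ j ∈ range J, Real.exp (-(((j:ℝ) + 1) * a)) := by gcongr
    _ ≤ 4 * G * ∑ j ∈ range J, Real.exp (-(((j:ℝ) + 1) * a)) := by
        gcongr ?_ * _
        linarith
    _ ≤ 4 * G * (1 / (Real.exp a - 1)) := by
        gcongr
        exact planck_ge_series ha0 J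
    _ = _ := by ring

theorem phase_orthogonal (x z : Site N) :
    ∑ k : Site N, star (phase (kdot k) x) * phase (kdot k) z =
      if x = z then (Fintype.card (Site N) : ℂ) else 0 := by
  by_cases hxz : x = z
  · subst hxz
    rw [if_pos rfl, sum_congr rfl fun k _ => (mul_comm (star (phase (kdot k) x)) _).trans
      (phase_mul_star (kdot k) x)]
    simp
  rw [if_neg hxz]
  obtain ⟨j, hj⟩ := Function.ne_iff.mp hxz
  let u : Fin 3 → ℂ := fun l => Complex.exp
    (2 * Real.pi * Complex.I * ((((z l : ℕ) : ℂ) - ((x l : ℕ) : ℂ)) / (2 * N + 1)))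
  have he : ∀ k : Site N, star (phase (kdot k) x) * phase (kdot k) z =
      ∏ l, u l ^ (k l : ℕ) := by
    intro k
    simp only [u, ← Complex.exp_nat_mul, ← Complex.exp_sum]
    rw [phase_star, phase, phase, ← Complex.exp_add]
    congr 1
    simp only [kdot, momentum]
    push_cast
    rw [neg_mul, sum_mul, sum_mul, ← sum_neg_distrib, ← sum_add_distrib]
    refine sum_congr rfl fun l _ => ?_
    ring
  simp only [he]
  rw [← Fintype.prod_sum (fun l (a : Fin (2 * N + 1)) => u l ^ (a : ℕ))]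
  refine prod_eq_zero (mem_univ j) ?_
  rw [Fin.sum_univ_eq_sum_range (fun a => u j ^ a)]
  have hne : (2 * N + 1 : ℂ) ≠ 0 := by exact_mod_cast Nat.succ_ne_zero (2 * N)
  have hu : u j ≠ 1 := by
    intro h
    obtain ⟨q, hq⟩ := Complex.exp_eq_one_iff.mp h
    have hpi : (2 * Real.pi * Complex.I : ℂ) ≠ 0 := by simp [Real.pi_ne_zero, Complex.I_ne_zero]
    rw [mul_comm (q:ℂ)] at hq
    have h2 := mul_left_cancel₀ hpi hq
    rw [div_eq_iff hne] at h2
    have h3 : ((z j : ℕ) : ℤ) - ((x j : ℕ) : ℤ) = q * (2 * N + 1) := by exact_mod_cast h2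
    have hx := (x j).isLt
    have hz := (z j).isLt
    rcases lt_trichotomy q 0 with hq0 | hq0 | hq0
    · have : q * (2 * (N:ℤ) + 1) ≤ -1 * (2 * (N:ℤ) + 1) :=
        mul_le_mul_of_nonneg_right (by omega) (by omega)
      omega
    · subst hq0
      exact hj (Fin.ext (by omega))
    · have : 1 * (2 * (N:ℤ) + 1) ≤ q * (2 * (N:ℤ) + 1) :=
        mul_le_mul_of_nonneg_right (by omega) (by omega)
      omega
  have hpow : u j ^ (2 * N + 1) = 1 := by
    rw [← Complex.exp_nat_mul, Complex.exp_eq_one_iff]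
    refine ⟨((z j : ℕ) : ℤ) - ((x j : ℕ) : ℤ), ?_⟩
    push_cast
    field_simp
  rw [geom_sum_eq hu, hpow, sub_self, zero_div]

theorem sum_waveOp_sq :
    ∑ k : Site N, (waveOp n (phase (kdot k)))ᴴ * waveOp n (phase (kdot k)) =
      (Fintype.card (Site N) : ℂ) • ∑ x, opQ x * opP x := by
  simp only [waveOp_conjTranspose]
  simp only [waveOp, Matrix.sum_mul, Matrix.mul_sum, Matrix.smul_mul,
    Matrix.mul_smul, smul_smul, smul_sum]
  rw [sum_comm]
  refine sum_congr rfl fun x _ => ?_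
  rw [sum_comm]
  simp only [← sum_smul]
  rw [sum_eq_single x]
  · rw [sum_congr rfl fun k _ => phase_mul_star (kdot k) x, sum_const, card_univ, nsmul_one]
  · intro z _ hz
    rw [show ∑ k : Site N, phase (kdot k) x * star (phase (kdot k) z) = 0 by
      simpa [mul_comm, if_neg hz] using phase_orthogonal z x]
    simp
  · simp

theorem sum_waveOp_sq' :
    ∑ k : Site N, (waveOp n (fun z => star (phase (kdot k) z)))ᴴ *
        waveOp n (fun z => star (phase (kdot k) z)) =
      (Fintype.card (Site N) : ℂ) • ∑ x, opQ x * opP x := by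
  simp only [waveOp_conjTranspose]
  simp only [waveOp, star_star, Matrix.sum_mul, Matrix.mul_sum,
    Matrix.smul_mul, Matrix.mul_smul, smul_smul, smul_sum]
  rw [sum_comm]
  refine sum_congr rfl fun x _ => ?_
  rw [sum_comm]
  simp only [← sum_smul]
  rw [sum_eq_single x]
  · rw [phase_orthogonal x x, if_pos rfl]
  · intro z _ hz
    rw [show ∑ k : Site N, star (phase (kdot k) x) * phase (kdot k) z = 0 by
      simpa [if_neg hz.symm] using phase_orthogonal x z]
    simp
  · simp

theorem gexp_minus_plus_le (β h : ℝ) :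
    gexp (expo_isHermitian (n := n) (N := N) β h) (∑ x, opQ x * opP x) ≤
      (n : ℝ) * (((n : ℝ) / 2) * (Fintype.card (Site N) : ℝ) -
        gexp (expo_isHermitian (n := n) (N := N) β h) (totalSpin3 n N)) := by
  set hK := expo_isHermitian (n := n) (N := N) β h with hhK
  rw [totalSpin3, gexp_sum, gexp_sum, mul_sub, mul_sum, ← mul_assoc]
  have e : (n:ℝ) * ((n:ℝ)/2) * (Fintype.card (Site N) : ℝ) =
      ∑ _x : Site N, (n:ℝ) * ((n:ℝ)/2) := by
    simp [mul_comm]
  rw [e, ← sum_sub_distrib]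
  refine sum_le_sum fun x _ => ?_
  have e1 : opQ (n := n) x * opP x = diagonal fun σ : Config n N =>
      (((((σ x : ℕ) : ℝ)) * ((n : ℝ) + 1 - (σ x : ℕ)) : ℝ) : ℂ) := by
    rw [opQ, opP, atSite_mul, spinMinus_mul_spinPlus, atSite_diagonal]
    simp
  have e2 : ((((n:ℝ) * ((n:ℝ)/2)) : ℝ) : ℂ) • (1 : Matrix (Config n N) (Config n N) ℂ) -
      ((n:ℝ) : ℂ) • atSite x (spin3 n) = diagonal fun σ : Config n N =>
        (((n:ℝ) * ((n:ℝ)/2) - (n:ℝ) * spinVal n (σ x) : ℝ) : ℂ) := by
    rw [spin3, atSite_diagonal, smul_one_eq_diagonal, ← diagonal_smul, diagonal_sub]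
    congr 1
    funext σ
    simp
  have h := gexp_diagonal_mono hK
    (fun σ : Config n N => ((σ x : ℕ) : ℝ) * ((n : ℝ) + 1 - (σ x : ℕ)))
    (fun σ : Config n N => (n:ℝ) * ((n:ℝ)/2) - (n:ℝ) * spinVal n (σ x)) fun σ => by
      rw [spinVal]
      rcases Nat.eq_zero_or_pos (σ x : ℕ) with h0 | h0
      · simp [h0]
      · have : (1:ℝ) ≤ (σ x : ℕ) := by exact_mod_cast h0
        nlinarith
  rw [← e1, ← e2, gexp_sub, gexp_smul, gexp_smul, gexp_one, mul_one] at h
  exact h

/-- The one-dimensional momentum average. -/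
noncomputable def riemannAvg (N : ℕ) (t : ℝ) : ℝ :=
  (∑ a : Fin (2 * N + 1), Real.exp (-(t * (1 - Real.cos (2 * Real.pi * ((a : ℕ) : ℝ) / (2 * N + 1))))))
    / (2 * N + 1)

/-- The finite-volume bound. -/
theorem finite_volume_bound (hn : 1 ≤ n) (β h m : ℝ) (hβ : 0 < β) (hh : 0 < h) (hm : 0 < m)
    (hmN : m ≤ magN n N β h) (J : ℕ) :
    m / ((n:ℝ)/2) * ∑ j ∈ range J, Real.exp (-(((j:ℝ) + 1) * (β * h))) *
        riemannAvg N (2 * ((j:ℝ) + 1) * β * ((n:ℝ)/2) ^ 2 / m) ^ 3 ≤
      (n:ℝ)/2 - magN n N β h := by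
  set hK := expo_isHermitian (n := n) (N := N) β h with hhK
  set L := (Fintype.card (Site N) : ℝ) with hL
  have hL0 : 0 < L := card_site_pos
  have hn0 : (0:ℝ) < n := by exact_mod_cast hn
  have h1 := sum_le_sum (s := univ) fun k _ => magnon_pair β h m hβ hh hm hmN k J
  have hcast : ((Fintype.card (Site N) : ℂ)) = ((L : ℝ) : ℂ) := by simp [L]
  rw [sum_add_distrib, ← gexp_sum, ← gexp_sum, sum_waveOp_sq, sum_waveOp_sq', hcast, gexp_smul,
    ← mul_sum, ← hL] at h1
  have h2 := gexp_minus_plus_le (n := n) (N := N) β h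
  rw [← hhK] at h1 h2
  have h3 : gexp hK (totalSpin3 n N) = magN n N β h * L := by
    rw [magN, ← hhK, ← hL]; field_simp
  rw [h3, ← hL] at h2
  have hfac : ∑ k : Site N, ∑ j ∈ range J,
      Real.exp (-(((j:ℝ) + 1) * (β * (2 * ((n:ℝ)/2) ^ 2 * dispersion k / m + h)))) =
      L * ∑ j ∈ range J, Real.exp (-(((j:ℝ) + 1) * (β * h))) *
        riemannAvg N (2 * ((j:ℝ) + 1) * β * ((n:ℝ)/2) ^ 2 / m) ^ 3 := by
    rw [sum_comm, mul_sum]
    refine sum_congr rfl fun j _ => ?_
    set t := 2 * ((j:ℝ) + 1) * β * ((n:ℝ)/2) ^ 2 / m with ht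
    have e : ∀ k : Site N,
        Real.exp (-(((j:ℝ) + 1) * (β * (2 * ((n:ℝ)/2) ^ 2 * dispersion k / m + h)))) =
        Real.exp (-(((j:ℝ) + 1) * (β * h))) *
          ∏ l, Real.exp (-(t * (1 - Real.cos (2 * Real.pi * ((k l : ℕ) : ℝ) / (2 * N + 1))))) := by
      intro k
      rw [← Real.exp_sum, sum_neg_distrib, ← mul_sum, ← Real.exp_add]
      congr 1
      rw [ht, dispersion]
      simp only [momentum]
      ring
    simp only [e, ← mul_sum]
    rw [← Fintype.prod_sum (fun _l (a : Fin (2 * N + 1)) =>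
      Real.exp (-(t * (1 - Real.cos (2 * Real.pi * ((a : ℕ) : ℝ) / (2 * N + 1)))))),
      prod_const, card_univ, Fintype.card_fin, riemannAvg, div_pow]
    have hLe : L = (2 * (N:ℝ) + 1) ^ 3 := by
      simp [L, Fintype.card_fun]
    rw [hLe]
    field_simp
  rw [hfac] at h1
  rw [div_mul_eq_mul_div, div_le_iff₀ (by positivity)]
  refine le_of_mul_le_mul_left ?_ (show (0:ℝ) < 4 * L * L by positivity)
  nlinarith [h1, h2, hL0]

end Vale.Agent.P361
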