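import Mathlib

/-!
The spin-`n/2` Heisenberg ferromagnet on the boxes `{-N,...,N}^3` with free boundary conditions.
-/

open Matrix Finset Filter Topology

namespace Vale.Agent.P361

/-- Eigenvalue of `S^3` on the basis state `i`: `S - i` with `S = n/2`. -/
noncomputable def spinVal (n : ℕ) (i : Fin (n + 1)) : ℝ := (n : ℝ) / 2 - (i : ℕ)

/-- The raising matrix `S^+` of spin `n/2`: `S^+ e_j = √(j (n+1-j)) e_{j-1}`. -/
noncomputable def spinPlus (n : ℕ) : Matrix (Fin (n + 1)) (Fin (n + 1)) ℂ := fun i j =>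
  if (i : ℕ) + 1 = j then (Real.sqrt ((j : ℕ) * ((n : ℝ) + 1 - (j : ℕ))) : ℂ) else 0

/-- The lowering matrix `S^-`. -/
noncomputable def spinMinus (n : ℕ) : Matrix (Fin (n + 1)) (Fin (n + 1)) ℂ := (spinPlus n)ᴴ

/-- The spin matrix `S^1`. -/
noncomputable def spin1 (n : ℕ) : Matrix (Fin (n + 1)) (Fin (n + 1)) ℂ :=
  (1 / 2 : ℂ) • (spinPlus n + spinMinus n)

/-- The spin matrix `S^2`. -/
noncomputable def spin2 (n : ℕ) : Matrix (Fin (n + 1)) (Fin (n + 1)) ℂ :=
  (-Complex.I / 2) • (spinPlus n - spinMinus n)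

/-- The spin matrix `S^3`. -/
noncomputable def spin3 (n : ℕ) : Matrix (Fin (n + 1)) (Fin (n + 1)) ℂ :=
  diagonal fun i => (spinVal n i : ℂ)

/-- The sites of the box `{-N,...,N}^3`, each coordinate shifted by `N`. -/
abbrev Site (N : ℕ) := Fin 3 → Fin (2 * N + 1)

/-- Basis states of the box. -/
abbrev Config (n N : ℕ) := Site N → Fin (n + 1)

/-- A one-site matrix `M` acting at the site `x`, the identity at all other sites. -/
noncomputable def atSite {n N : ℕ} (x : Site N) (M : Matrix (Fin (n + 1)) (Fin (n + 1)) ℂ) :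
    Matrix (Config n N) (Config n N) ℂ := fun σ τ =>
  if ∀ y, y ≠ x → σ y = τ y then M (σ x) (τ x) else 0

/-- Nearest neighbours: `|x - y|_1 = 1`. -/
def Adj {N : ℕ} (x y : Site N) : Prop :=
  ∑ j, |((x j : ℕ) : ℤ) - ((y j : ℕ) : ℤ)| = 1

instance {N : ℕ} : DecidableRel (Adj (N := N)) := fun x y =>
  inferInstanceAs (Decidable (∑ j, |((x j : ℕ) : ℤ) - ((y j : ℕ) : ℤ)| = 1))

/-- `S_x · S_y`. -/
noncomputable def spinDot {n N : ℕ} (x y : Site N) : Matrix (Config n N) (Config n N) ℂ :=
  atSite x (spin1 n) * atSite y (spin1 n) + atSite x (spin2 n) * atSite y (spin2 n)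
    + atSite x (spin3 n) * atSite y (spin3 n)

/-- The Hamiltonian: minus the sum of `S_x · S_y` over unordered nearest-neighbour pairs, written
as minus one half of the sum over ordered pairs. -/
noncomputable def hamiltonian (n N : ℕ) : Matrix (Config n N) (Config n N) ℂ :=
  -(1 / 2 : ℂ) • ∑ x, ∑ y, if Adj x y then spinDot x y else 0

/-- The total `S^3`. -/
noncomputable def totalSpin3 (n N : ℕ) : Matrix (Config n N) (Config n N) ℂ :=
  ∑ x : Site N, atSite x (spin3 n)

/-- The finite-volume pressure `(β |Λ|)⁻¹ log tr exp(-β (H - h M))`. -/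
noncomputable def pressureN (n N : ℕ) (β h : ℝ) : ℝ :=
  Real.log (Matrix.trace (NormedSpace.exp
    ((-β : ℂ) • (hamiltonian n N - (h : ℂ) • totalSpin3 n N)))).re
    / (β * (Fintype.card (Site N) : ℝ))

/-- The infinite-volume pressure, as the upper limit over boxes. -/
noncomputable def pressure (n : ℕ) (β h : ℝ) : ℝ :=
  limsup (fun N => pressureN n N β h) atTop

/-- The spontaneous magnetization: the right derivative of the pressure at zero field. -/
noncomputable def magnetization (n : ℕ) (β : ℝ) : ℝ :=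
  derivWithin (pressure n β) (Set.Ioi 0) 0

end Vale.Agent.P361
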