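import Mathlib

/-!
Finite-dimensional Gibbs functionals: Peierls-Bogoliubov inequality and a sharpened
Bogoliubov inequality (Roepstorff type).
-/

open Matrix Finset
open scoped ComplexOrder

namespace Vale.Agent.P361

variable {ι : Type*} [Fintype ι] [DecidableEq ι]

/-- Columns of the eigenvector matrix, viewed as a matrix. -/
noncomputable def eigU {K : Matrix ι ι ℂ} (hK : K.IsHermitian) : Matrix ι ι ℂ :=
  (hK.eigenvectorUnitary : Matrix ι ι ℂ)

/-- The matrix `X` in the eigenbasis of `K`. -/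
noncomputable def inBasis {K : Matrix ι ι ℂ} (hK : K.IsHermitian) (X : Matrix ι ι ℂ) :
    Matrix ι ι ℂ :=
  (eigU hK)ᴴ * X * eigU hK

/-- Partition function `tr exp K`. -/
noncomputable def zPart (K : Matrix ι ι ℂ) : ℝ := (Matrix.trace (NormedSpace.exp K)).re

/-- Gibbs expectation `tr (X exp K) / tr exp K`, in eigen-coordinates. -/
noncomputable def gexp {K : Matrix ι ι ℂ} (hK : K.IsHermitian) (X : Matrix ι ι ℂ) : ℝ :=
  (∑ i, Real.exp (hK.eigenvalues i) * (inBasis hK X i i).re) / ∑ i, Real.exp (hK.eigenvalues i)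

variable {K : Matrix ι ι ℂ} (hK : K.IsHermitian)

theorem eigU_star_mul : (eigU hK)ᴴ * eigU hK = 1 :=
  Unitary.coe_star_mul_self hK.eigenvectorUnitary

theorem eigU_mul_star : eigU hK * (eigU hK)ᴴ = 1 :=
  Unitary.coe_mul_star_self hK.eigenvectorUnitary

theorem inBasis_mul (X Y : Matrix ι ι ℂ) :
    inBasis hK (X * Y) = inBasis hK X * inBasis hK Y := by
  have h := eigU_mul_star hK
  simp only [inBasis, Matrix.mul_assoc]
  rw [← Matrix.mul_assoc (eigU hK) (eigU hK)ᴴ, h, Matrix.one_mul]

theorem inBasis_conjTranspose (X : Matrix ι ι ℂ) :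
    inBasis hK Xᴴ = (inBasis hK X)ᴴ := by
  simp [inBasis, Matrix.mul_assoc]

theorem inBasis_sub (X Y : Matrix ι ι ℂ) :
    inBasis hK (X - Y) = inBasis hK X - inBasis hK Y := by
  simp [inBasis, Matrix.mul_sub, Matrix.sub_mul]

theorem inBasis_self :
    inBasis hK K = diagonal (fun i => (hK.eigenvalues i : ℂ)) := by
  have h := hK.conjStarAlgAut_star_eigenvectorUnitary
  rw [Unitary.conjStarAlgAut_star_apply] at h
  exact h

theorem gexp_add (X Y : Matrix ι ι ℂ) : gexp hK (X + Y) = gexp hK X + gexp hK Y := by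
  simp [gexp, inBasis, Matrix.add_mul, Matrix.mul_add, mul_add, sum_add_distrib, add_div]

theorem gexp_zero : gexp hK 0 = 0 := by simp [gexp, inBasis]

theorem gexp_sum {α : Type*} (s : Finset α) (f : α → Matrix ι ι ℂ) :
    gexp hK (∑ a ∈ s, f a) = ∑ a ∈ s, gexp hK (f a) := by
  classical
  induction s using Finset.induction_on with
  | empty => simp [gexp_zero]
  | insert a s ha ih => simp [sum_insert ha, gexp_add, ih]

theorem gexp_smul (r : ℝ) (X : Matrix ι ι ℂ) : gexp hK ((r : ℂ) • X) = r * gexp hK X := by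
  simp [gexp, inBasis, mul_left_comm, ← mul_sum, mul_div_assoc]

theorem gexp_sub (X Y : Matrix ι ι ℂ) : gexp hK (X - Y) = gexp hK X - gexp hK Y := by
  simp [gexp, inBasis, Matrix.mul_sub, Matrix.sub_mul, mul_sub, sum_sub_distrib, sub_div]

theorem zsum_pos [Nonempty ι] : 0 < ∑ i, Real.exp (hK.eigenvalues i) :=
  sum_pos (fun i _ => Real.exp_pos _) univ_nonempty

theorem gexp_one [Nonempty ι] : gexp hK 1 = 1 := by
  have h : inBasis hK 1 = 1 := by simp [inBasis, eigU_star_mul]
  simp [gexp, h, (zsum_pos hK).ne']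

theorem inBasis_apply (X : Matrix ι ι ℂ) (i : ι) :
    inBasis hK X i i = star (fun a => eigU hK a i) ⬝ᵥ (X *ᵥ fun a => eigU hK a i) := by
  simp only [inBasis, Matrix.mul_apply, conjTranspose_apply, dotProduct, mulVec, Pi.star_apply,
    sum_mul, mul_sum]
  rw [sum_comm]
  simp [mul_assoc]

theorem eigU_col_norm (i : ι) :
    star (fun a => eigU hK a i) ⬝ᵥ (fun a => eigU hK a i) = 1 := by
  have h := congrFun (congrFun (eigU_star_mul hK) i) i
  simpa [Matrix.mul_apply, dotProduct] using h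

theorem gexp_mono {X Y : Matrix ι ι ℂ}
    (h : ∀ v : ι → ℂ, (star v ⬝ᵥ (X *ᵥ v)).re ≤ (star v ⬝ᵥ (Y *ᵥ v)).re) :
    gexp hK X ≤ gexp hK Y := by
  refine div_le_div_of_nonneg_right (sum_le_sum fun i _ => ?_)
    (sum_nonneg fun i _ => (Real.exp_pos _).le)
  refine mul_le_mul_of_nonneg_left ?_ (Real.exp_pos _).le
  rw [inBasis_apply, inBasis_apply]
  exact h _

theorem exp_eq :
    NormedSpace.exp K =
      eigU hK * diagonal (fun i => (Real.exp (hK.eigenvalues i) : ℂ)) * (eigU hK)ᴴ := by
  have hd : K = eigU hK * diagonal (fun i => (hK.eigenvalues i : ℂ)) * (eigU hK)ᴴ := by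
    have h := hK.spectral_theorem
    rw [Unitary.conjStarAlgAut_apply] at h
    exact h
  let U : (Matrix ι ι ℂ)ˣ := ⟨eigU hK, (eigU hK)ᴴ, eigU_mul_star hK, eigU_star_mul hK⟩
  have h2 := Matrix.exp_units_conj U (diagonal (fun i => (hK.eigenvalues i : ℂ)))
  conv_lhs => rw [hd]
  refine h2.trans ?_
  have he : NormedSpace.exp (fun i => (hK.eigenvalues i : ℂ)) =
      fun i => (Real.exp (hK.eigenvalues i) : ℂ) := by
    funext i
    simp [Pi.coe_exp, Complex.exp_eq_exp_ℂ]
  rw [Matrix.exp_diagonal, he]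
  rfl

theorem zPart_eq : zPart K = ∑ i, Real.exp (hK.eigenvalues i) := by
  rw [zPart, exp_eq hK, trace_mul_cycle, eigU_star_mul, Matrix.one_mul, trace_diagonal]
  simp [Complex.exp_ofReal_re]

theorem zPart_pos [Nonempty ι] (hK : K.IsHermitian) : 0 < zPart K := by
  rw [zPart_eq hK]; exact zsum_pos hK

include hK in
/-- Peierls' inequality. -/
theorem peierls (V : Matrix ι ι ℂ) (hV : Vᴴ * V = 1) :
    ∑ i, Real.exp ((Vᴴ * K * V) i i).re ≤ zPart K := by
  have hV' : V * Vᴴ = 1 := mul_eq_one_comm.mp hV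
  set W := (eigU hK)ᴴ * V with hW
  have hWW : Wᴴ * W = 1 := by
    rw [hW, conjTranspose_mul, conjTranspose_conjTranspose, Matrix.mul_assoc,
      ← Matrix.mul_assoc (eigU hK) (eigU hK)ᴴ, eigU_mul_star, Matrix.one_mul, hV]
  have hWW' : W * Wᴴ = 1 := mul_eq_one_comm.mp hWW
  have hcol : ∀ i, ∑ j, Complex.normSq (W j i) = 1 := by
    intro i
    have h := congrArg Complex.re (congrFun (congrFun hWW i) i)
    simpa [Matrix.mul_apply, Complex.normSq_apply] using h
  have hrow : ∀ j, ∑ i, Complex.normSq (W j i) = 1 := by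
    intro j
    have h := congrArg Complex.re (congrFun (congrFun hWW' j) j)
    simpa [Matrix.mul_apply, Complex.normSq_apply] using h
  have hdiag : ∀ i, ((Vᴴ * K * V) i i).re =
      ∑ j, Complex.normSq (W j i) * hK.eigenvalues j := by
    intro i
    have e : Vᴴ * K * V = Wᴴ * inBasis hK K * W := by
      have h := eigU_mul_star hK
      simp only [hW, inBasis, conjTranspose_mul, conjTranspose_conjTranspose, Matrix.mul_assoc]
      rw [← Matrix.mul_assoc (eigU hK) (eigU hK)ᴴ, h, Matrix.one_mul,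
        ← Matrix.mul_assoc (eigU hK) (eigU hK)ᴴ, h, Matrix.one_mul]
    rw [e, inBasis_self, Matrix.mul_apply, Complex.re_sum]
    refine sum_congr rfl fun j _ => ?_
    simp [mul_diagonal, Complex.normSq_apply]
    ring
  rw [zPart_eq hK]
  calc ∑ i, Real.exp ((Vᴴ * K * V) i i).re
      ≤ ∑ i, ∑ j, Complex.normSq (W j i) * Real.exp (hK.eigenvalues j) := by
        refine sum_le_sum fun i _ => ?_
        rw [hdiag]
        simpa using convexOn_exp.map_sum_le (t := univ)
          (fun j _ => Complex.normSq_nonneg (W j i)) (hcol i) (fun j _ => Set.mem_univ _)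
    _ = ∑ j, Real.exp (hK.eigenvalues j) := by
        rw [sum_comm]
        simp [← sum_mul, hrow]

theorem exp_diag_le_zPart (hK : K.IsHermitian) (i : ι) : Real.exp (K i i).re ≤ zPart K := by
  have h := peierls hK 1 (by simp)
  simp only [conjTranspose_one, Matrix.one_mul, Matrix.mul_one] at h
  exact le_trans (single_le_sum (f := fun i => Real.exp (K i i).re)
    (fun j _ => (Real.exp_pos _).le) (mem_univ i)) h

/-- Peierls-Bogoliubov inequality. -/
theorem log_zPart_add [Nonempty ι] {B : Matrix ι ι ℂ} (hKB : (K + B).IsHermitian) :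
    Real.log (zPart K) + gexp hK B ≤ Real.log (zPart (K + B)) := by
  have h := peierls hKB (eigU hK) (eigU_star_mul hK)
  have e : ∀ i, ((eigU hK)ᴴ * (K + B) * eigU hK) i i =
      (hK.eigenvalues i : ℂ) + inBasis hK B i i := by
    intro i
    have : (eigU hK)ᴴ * (K + B) * eigU hK = inBasis hK K + inBasis hK B := by
      simp [inBasis, Matrix.mul_add, Matrix.add_mul]
    rw [this, inBasis_self]
    simp
  simp only [e, Complex.add_re, Complex.ofReal_re, Real.exp_add] at h
  set Z := ∑ i, Real.exp (hK.eigenvalues i) with hZ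
  have hZ0 : 0 < Z := zsum_pos hK
  have hj : Real.exp (gexp hK B) ≤
      ∑ i, (Real.exp (hK.eigenvalues i) / Z) * Real.exp (inBasis hK B i i).re := by
    have := convexOn_exp.map_sum_le (t := univ)
      (w := fun i => Real.exp (hK.eigenvalues i) / Z) (p := fun i => (inBasis hK B i i).re)
      (fun i _ => by positivity) (by rw [← sum_div, ← hZ, div_self hZ0.ne'])
      (fun j _ => Set.mem_univ _)
    refine le_trans (le_of_eq ?_) this
    simp [gexp, ← hZ, sum_div, mul_div_right_comm]
  have h2 : Z * Real.exp (gexp hK B) ≤ zPart (K + B) := by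
    refine le_trans ?_ h
    calc Z * Real.exp (gexp hK B)
        ≤ Z * ∑ i, (Real.exp (hK.eigenvalues i) / Z) * Real.exp (inBasis hK B i i).re :=
          mul_le_mul_of_nonneg_left hj hZ0.le
      _ = ∑ i, Real.exp (hK.eigenvalues i) * Real.exp (inBasis hK B i i).re := by
          rw [mul_sum]
          exact sum_congr rfl fun i _ => by field_simp
  rw [zPart_eq hK, ← hZ]
  calc Real.log Z + gexp hK B = Real.log (Z * Real.exp (gexp hK B)) := by
        rw [Real.log_mul hZ0.ne' (Real.exp_pos _).ne', Real.log_exp]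
    _ ≤ _ := Real.log_le_log (by positivity) h2

/-- Tangent line to `y ↦ 1 / (exp y - 1)`. -/
theorem planck_tangent {y a : ℝ} (hy : 0 < y) (ha : 0 < a) :
    1 / (Real.exp a - 1) - Real.exp a / (Real.exp a - 1) ^ 2 * (y - a) ≤
      1 / (Real.exp y - 1) := by
  set u := Real.exp y with hu
  set v := Real.exp a with hv
  have hu1 : 1 < u := Real.one_lt_exp_iff.mpr hy
  have hv1 : 1 < v := Real.one_lt_exp_iff.mpr ha
  have hlog : 1 - v / u ≤ y - a := by
    have h := Real.add_one_le_exp (a - y)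
    rw [Real.exp_sub, ← hu, ← hv] at h
    linarith
  have hc : 0 ≤ v / (v - 1) ^ 2 := by positivity
  have h1 : v / (v - 1) ^ 2 * (1 - v / u) ≤ v / (v - 1) ^ 2 * (y - a) :=
    mul_le_mul_of_nonneg_left hlog hc
  have hu0 : u - 1 ≠ 0 := (sub_pos.mpr hu1).ne'
  have hv0 : v - 1 ≠ 0 := (sub_pos.mpr hv1).ne'
  have hu2 : u ≠ 0 := by positivity
  have h2 : 1 / (u - 1) - 1 / (v - 1) + v / (v - 1) ^ 2 * (1 - v / u) =
      (u - v) ^ 2 / (u * (u - 1) * (v - 1) ^ 2) := by
    field_simp
    ring
  have h3 : 0 ≤ (u - v) ^ 2 / (u * (u - 1) * (v - 1) ^ 2) := by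
    have : 0 ≤ u - 1 := (sub_pos.mpr hu1).le
    positivity
  linarith

/-- The scalar inequality behind the sharpened Bogoliubov inequality. -/
theorem roepstorff_scalar {κ : Type*} [Fintype κ] (w x : κ → ℝ) (hw : ∀ k, 0 ≤ w k) (D : ℝ)
    (hC : 0 < ∑ k, w k * (Real.exp (x k) - 1))
    (hD : ∑ k, w k * (x k * (Real.exp (x k) - 1)) ≤ D) :
    (∑ k, w k * (Real.exp (x k) - 1)) /
      (Real.exp (D / ∑ k, w k * (Real.exp (x k) - 1)) - 1) ≤ ∑ k, w k := by
  set C := ∑ k, w k * (Real.exp (x k) - 1) with hCdef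
  have hterm : ∀ t : ℝ, |t| * |Real.exp t - 1| = t * (Real.exp t - 1) := by
    intro t
    rcases le_total 0 t with ht | ht
    · rw [abs_of_nonneg ht, abs_of_nonneg (by linarith [Real.one_le_exp ht])]
    · rw [abs_of_nonpos ht, abs_of_nonpos (by linarith [Real.exp_le_one_iff.mpr ht])]
      ring
  have hDpos : 0 < D := by
    refine lt_of_lt_of_le ?_ hD
    by_contra hne
    push Not at hne
    have hnn : ∀ k ∈ univ, (0:ℝ) ≤ w k * (x k * (Real.exp (x k) - 1)) := fun k _ =>
      mul_nonneg (hw k) (by rw [← hterm]; positivity)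
    have h0 := (sum_eq_zero_iff_of_nonneg hnn).mp (le_antisymm hne (sum_nonneg hnn))
    have : C = 0 := sum_eq_zero fun k hk => by
      rcases mul_eq_zero.mp (h0 k hk) with h | h
      · simp [h]
      rcases mul_eq_zero.mp h with h | h
      · simp [h]
      · simp [h]
    linarith
  set a := D / C with ha
  have ha0 : 0 < a := div_pos hDpos hC
  have hv1 : 1 < Real.exp a := Real.one_lt_exp_iff.mpr ha0
  set g := 1 / (Real.exp a - 1) with hg
  set s := Real.exp a / (Real.exp a - 1) ^ 2 with hs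
  have hs0 : 0 ≤ s := by positivity
  have hg0 : 0 ≤ g := by
    have : 0 < Real.exp a - 1 := sub_pos.mpr hv1
    positivity
  have key : ∀ k, w k * |Real.exp (x k) - 1| * (1 + 2 * (g + s * a))
      - 2 * s * (w k * (x k * (Real.exp (x k) - 1))) ≤ w k * (Real.exp (x k) + 1) := by
    intro k
    rw [← hterm (x k)]
    by_cases hx : x k = 0
    · simp [hx]; linarith [hw k]
    · have hy : 0 < |x k| := abs_pos.mpr hx
      have ht := planck_tangent hy ha0
      rw [← hg, ← hs] at ht
      have hpi : 0 ≤ w k * |Real.exp (x k) - 1| := mul_nonneg (hw k) (abs_nonneg _)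
      have he : |Real.exp (x k) - 1| * (1 + 2 * (1 / (Real.exp |x k| - 1))) =
          Real.exp (x k) + 1 := by
        rcases lt_or_gt_of_ne hx with h | h
        · rw [abs_of_neg h, Real.exp_neg,
            abs_of_neg (by linarith [Real.exp_lt_one_iff.mpr h])]
          have h1 := Real.exp_lt_one_iff.mpr h
          have h2 : (1 : ℝ) - Real.exp (x k) ≠ 0 := by linarith
          have h3 := (Real.exp_pos (x k)).ne'
          field_simp
          ring
        · have h1 := Real.one_lt_exp_iff.mpr h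
          rw [abs_of_pos h, abs_of_pos (by linarith)]
          have h2 : Real.exp (x k) - 1 ≠ 0 := by linarith
          field_simp
          ring
      have h3 : w k * |Real.exp (x k) - 1| * (1 + 2 * (g - s * (|x k| - a))) ≤
          w k * |Real.exp (x k) - 1| * (1 + 2 * (1 / (Real.exp |x k| - 1))) :=
        mul_le_mul_of_nonneg_left (by linarith) hpi
      rw [mul_assoc (w k) _ (1 + 2 * (1 / (Real.exp |x k| - 1))), he] at h3
      nlinarith [h3]
  have hsum := sum_le_sum (s := univ) fun k _ => key k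
  rw [sum_sub_distrib, ← sum_mul, ← mul_sum] at hsum
  set P := ∑ k, w k * |Real.exp (x k) - 1| with hP
  have hCP : C ≤ P := sum_le_sum fun k _ => mul_le_mul_of_nonneg_left (le_abs_self _) (hw k)
  have hR : ∑ k, w k * (Real.exp (x k) + 1) = C + 2 * ∑ k, w k := by
    rw [hCdef, mul_sum, ← sum_add_distrib]
    exact sum_congr rfl fun k _ => by ring
  rw [hR] at hsum
  have h4 : 2 * s * ∑ k, w k * (x k * (Real.exp (x k) - 1)) ≤ 2 * s * D :=
    mul_le_mul_of_nonneg_left hD (by linarith)
  have h5 : C * (1 + 2 * (g + s * a)) ≤ P * (1 + 2 * (g + s * a)) :=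
    mul_le_mul_of_nonneg_right hCP (by positivity)
  have h6 : C * a = D := by rw [ha]; field_simp
  have h7 : C / (Real.exp a - 1) = C * g := by rw [hg]; ring
  rw [h7]
  nlinarith [hsum, h4, h5, h6]

/-- Sharpened Bogoliubov inequality for a finite family of operators. -/
theorem roepstorff [Nonempty ι] {κ : Type*} [Fintype κ] (A : κ → Matrix ι ι ℂ) (C D : ℝ)
    (hCeq : ∑ k, gexp hK (A k * (A k)ᴴ - (A k)ᴴ * A k) = C) (hC : 0 < C)
    (hD : ∑ k, gexp hK ((A k * (-K) - (-K) * A k) * (A k)ᴴ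
      - (A k)ᴴ * (A k * (-K) - (-K) * A k)) ≤ D) :
    C / (Real.exp (D / C) - 1) ≤ ∑ k, gexp hK ((A k)ᴴ * A k) := by
  set Z := ∑ i, Real.exp (hK.eigenvalues i) with hZ
  have hZ0 : 0 < Z := zsum_pos hK
  let l := hK.eigenvalues
  let w : κ × ι × ι → ℝ := fun t =>
    Complex.normSq (inBasis hK (A t.1) t.2.1 t.2.2) * Real.exp (l t.2.2) / Z
  let x : κ × ι × ι → ℝ := fun t => l t.2.1 - l t.2.2
  have hw : ∀ t, 0 ≤ w t := fun t =>
    div_nonneg (mul_nonneg (Complex.normSq_nonneg _) (Real.exp_pos _).le) hZ0.le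
  have hwx : ∀ t, w t * Real.exp (x t) =
      Complex.normSq (inBasis hK (A t.1) t.2.1 t.2.2) * Real.exp (l t.2.1) / Z := by
    intro t
    simp only [w, x, Real.exp_sub]
    field_simp
  have e1 : ∀ k, gexp hK ((A k)ᴴ * A k) = ∑ i, ∑ j, w (k, i, j) := by
    intro k
    simp only [gexp, inBasis_mul, inBasis_conjTranspose, Matrix.mul_apply, conjTranspose_apply,
      Complex.re_sum, mul_sum, sum_div, ← hZ]
    rw [sum_comm]
    refine sum_congr rfl fun i _ => sum_congr rfl fun j _ => ?_
    simp [w, l, Complex.normSq_apply]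
    ring
  have e2 : ∀ k, gexp hK (A k * (A k)ᴴ) = ∑ i, ∑ j, w (k, i, j) * Real.exp (x (k, i, j)) := by
    intro k
    simp only [gexp, inBasis_mul, inBasis_conjTranspose, Matrix.mul_apply, conjTranspose_apply,
      Complex.re_sum, mul_sum, sum_div, ← hZ]
    refine sum_congr rfl fun i _ => sum_congr rfl fun j _ => ?_
    rw [hwx]
    simp [l, Complex.normSq_apply]
    ring
  have e3 : ∀ k, gexp hK ((A k * (-K) - (-K) * A k) * (A k)ᴴ
      - (A k)ᴴ * (A k * (-K) - (-K) * A k)) =
      ∑ i, ∑ j, w (k, i, j) * (x (k, i, j) * (Real.exp (x (k, i, j)) - 1)) := by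
    intro k
    have hcomm : ∀ i j, inBasis hK (A k * (-K) - (-K) * A k) i j =
        ((l i - l j : ℝ) : ℂ) * inBasis hK (A k) i j := by
      intro i j
      have hneg : inBasis hK (-K) = -diagonal (fun i => (hK.eigenvalues i : ℂ)) := by
        rw [← inBasis_self hK]; simp [inBasis]
      rw [inBasis_sub, inBasis_mul, inBasis_mul, hneg]
      simp [mul_diagonal, diagonal_mul, l]
      ring
    rw [gexp_sub]
    simp only [gexp, inBasis_mul, inBasis_conjTranspose, Matrix.mul_apply, conjTranspose_apply,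
      hcomm, Complex.re_sum, mul_sum, sum_div, ← hZ]
    rw [sum_comm (f := fun i j => Real.exp (hK.eigenvalues i) *
      (star (inBasis hK (A k) j i) * _).re / Z), ← sum_sub_distrib]
    refine sum_congr rfl fun i _ => ?_
    rw [← sum_sub_distrib]
    refine sum_congr rfl fun j _ => ?_
    rw [show w (k, i, j) * (x (k, i, j) * (Real.exp (x (k, i, j)) - 1)) =
        x (k, i, j) * (w (k, i, j) * Real.exp (x (k, i, j))) - x (k, i, j) * w (k, i, j) by ring,
      hwx]
    simp [w, x, l, Complex.normSq_apply]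
    ring
  have hC' : ∑ t, w t * (Real.exp (x t) - 1) = C := by
    rw [← hCeq, Fintype.sum_prod_type]
    refine sum_congr rfl fun k _ => ?_
    rw [gexp_sub, e1, e2, Fintype.sum_prod_type, ← sum_sub_distrib]
    exact sum_congr rfl fun i _ => by rw [← sum_sub_distrib]; simp [mul_sub]
  have hD' : ∑ t, w t * (x t * (Real.exp (x t) - 1)) ≤ D := by
    refine le_of_eq_of_le ?_ hD
    rw [Fintype.sum_prod_type]
    exact sum_congr rfl fun k _ => by rw [e3, Fintype.sum_prod_type]
  have h := roepstorff_scalar w x hw D (hC'.symm ▸ hC) hD'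
  rw [hC'] at h
  refine h.trans (le_of_eq ?_)
  rw [Fintype.sum_prod_type]
  exact sum_congr rfl fun k _ => by rw [e1, Fintype.sum_prod_type]

end Vale.Agent.P361
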