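import Vale.Agent.P361.Pressure

/-!
Infinite volume and low-temperature limits.
-/

open Finset Filter Topology MeasureTheory

namespace Vale.Agent.P361

variable {n : ℕ}

/-- The lattice-momentum average of `exp(-t (1 - cos k))`. -/
noncomputable def momentumAvg (t : ℝ) : ℝ :=
  ∫ x in (0:ℝ)..1, Real.exp (-(t * (1 - Real.cos (2 * Real.pi * x))))

theorem momentumAvg_nonneg (t : ℝ) : 0 ≤ momentumAvg t :=
  intervalIntegral.integral_nonneg zero_le_one fun _ _ => (Real.exp_pos _).le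

theorem momentumAvg_continuous : Continuous momentumAvg :=
  intervalIntegral.continuous_parametric_intervalIntegral_of_continuous'
    (f := fun t x => Real.exp (-(t * (1 - Real.cos (2 * Real.pi * x))))) (by fun_prop) 0 1

theorem riemann_tendsto (g : ℝ → ℝ) (hg : Continuous g) :
    Tendsto (fun N : ℕ => (∑ a : Fin (2 * N + 1), g (((a : ℕ) : ℝ) / (2 * N + 1))) / (2 * N + 1))
      atTop (𝓝 (∫ x in (0:ℝ)..1, g x)) := by
  rw [Metric.tendsto_atTop]
  intro ε hε
  have huc := (isCompact_Icc (a := (0:ℝ)) (b := 1)).uniformContinuousOn_of_continuous hg.continuousOn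
  rw [Metric.uniformContinuousOn_iff] at huc
  obtain ⟨δ, hδ, hd⟩ := huc (ε / 2) (by positivity)
  obtain ⟨N0, hN0⟩ := exists_nat_gt (1 / δ)
  refine ⟨N0, fun N hN => ?_⟩
  set L : ℝ := 2 * N + 1 with hL
  have hL0 : 0 < L := by positivity
  have hLd : 1 / L < δ := by
    rw [div_lt_iff₀ hL0]
    have h : (N0:ℝ) ≤ N := by exact_mod_cast hN
    have h2 : 1 / δ < L := by rw [hL]; linarith
    rw [div_lt_iff₀ hδ] at h2
    linarith
  let a : ℕ → ℝ := fun l => (l:ℝ) / L
  have hsplit : ∑ l ∈ range (2*N+1), ∫ x in a l..a (l+1), g x = ∫ x in (0:ℝ)..1, g x := by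
    rw [intervalIntegral.sum_integral_adjacent_intervals fun k _ => hg.intervalIntegrable _ _]
    congr 1
    · simp [a]
    · simp only [a]; rw [hL]; push_cast; exact div_self (by positivity)
  rw [Real.dist_eq, Fin.sum_univ_eq_sum_range (fun l => g ((l:ℝ) / L)), ← hsplit, sum_div,
    ← sum_sub_distrib]
  have key : ∀ l ∈ range (2*N+1),
      |g (a l) / L - ∫ x in a l..a (l+1), g x| ≤ ε / 2 / L := by
    intro l hl
    have hl' : (l:ℝ) + 1 ≤ L := by
      rw [hL]; exact_mod_cast Finset.mem_range.mp hl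
    have hlen : a (l+1) - a l = 1 / L := by simp only [a]; push_cast; ring
    have h0 : 0 ≤ a l := by positivity
    have h1 : a (l+1) ≤ 1 := by
      simp only [a]; rw [div_le_one hL0]; push_cast; exact hl'
    have hle : a l ≤ a (l+1) := by
      have := one_div_pos.mpr hL0
      linarith
    have e : g (a l) / L - ∫ x in a l..a (l+1), g x =
        ∫ x in a l..a (l+1), (g (a l) - g x) := by
      rw [intervalIntegral.integral_sub intervalIntegrable_const (hg.intervalIntegrable _ _),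
        intervalIntegral.integral_const, hlen, smul_eq_mul]
      ring
    rw [e, ← Real.norm_eq_abs]
    refine (intervalIntegral.norm_integral_le_of_norm_le_const (C := ε/2) fun x hx => ?_).trans
      (le_of_eq ?_)
    · rw [Set.uIoc_of_le hle] at hx
      rw [Real.norm_eq_abs, ← Real.dist_eq]
      refine (hd (a l) ⟨h0, hle.trans h1⟩ x ⟨h0.trans hx.1.le, hx.2.trans h1⟩ ?_).le
      rw [Real.dist_eq, abs_lt]
      constructor <;> linarith [hx.1, hx.2]
    · rw [hlen, abs_of_pos (by positivity)]; ring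
  refine ((abs_sum_le_sum_abs _ _).trans (sum_le_sum key)).trans_lt ?_
  rw [sum_const, card_range, nsmul_eq_mul,
    show ((2*N+1 : ℕ) : ℝ) * (ε/2/L) = ε / 2 by push_cast; rw [hL]; field_simp]
  linarith

theorem riemannAvg_tendsto (t : ℝ) :
    Tendsto (fun N => riemannAvg N t) atTop (𝓝 (momentumAvg t)) := by
  have h := riemann_tendsto (fun x => Real.exp (-(t * (1 - Real.cos (2 * Real.pi * x)))))
    (by fun_prop)
  refine h.congr fun N => ?_
  simp only [riemannAvg]
  congr 1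
  exact sum_congr rfl fun a _ => by rw [mul_div_assoc]

/-- The infinite-volume bound at every temperature. -/
theorem infinite_volume_bound (hn : 1 ≤ n) (β : ℝ) (hβ : 0 < β) (hm : 0 < magnetization n β)
    (J : ℕ) :
    magnetization n β / ((n:ℝ)/2) * ∑ j ∈ range J,
      momentumAvg (2 * ((j:ℝ) + 1) * β * ((n:ℝ)/2) ^ 2 / magnetization n β) ^ 3 ≤
      (n:ℝ)/2 - magnetization n β := by
  set M := magnetization n β with hM
  let F : ℝ → ℝ → ℝ := fun h m => m / ((n:ℝ)/2) * ∑ j ∈ range J,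
      Real.exp (-(((j:ℝ) + 1) * (β * h))) *
      momentumAvg (2 * ((j:ℝ) + 1) * β * ((n:ℝ)/2) ^ 2 / m) ^ 3
  have step : ∀ h, 0 < h → ∀ m, 0 < m → m < M → F h m ≤ (n:ℝ)/2 - m := by
    intro h hh m hm0 hmM
    by_contra hcon
    have hlim : Tendsto (fun N => m / ((n:ℝ)/2) * ∑ j ∈ range J,
        Real.exp (-(((j:ℝ) + 1) * (β * h))) *
        riemannAvg N (2 * ((j:ℝ) + 1) * β * ((n:ℝ)/2) ^ 2 / m) ^ 3) atTop (𝓝 (F h m)) :=
      (tendsto_finsetSum _ fun j _ => ((riemannAvg_tendsto _).pow 3).const_mul _).const_mul _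
    have hev := (tendsto_order.mp hlim).1 _ (not_le.mp hcon)
    obtain ⟨N, hN1, hN2⟩ := ((frequently_magN (n := n) β h (M - m) hβ hh (by linarith)).and_eventually
      hev).exists
    rw [← hM, sub_sub_cancel] at hN1
    have := finite_volume_bound (N := N) hn β h m hβ hh hm0 hN1.le J
    linarith
  have step2 : ∀ m, 0 < m → m < M → F 0 m ≤ (n:ℝ)/2 - m := by
    intro m hm0 hmM
    have hc : Continuous fun h => F h m := by fun_prop
    have ht : Tendsto (fun h => F h m) (𝓝[>] 0) (𝓝 (F 0 m)) :=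
      (hc.tendsto 0).mono_left nhdsWithin_le_nhds
    refine le_of_tendsto ht ?_
    filter_upwards [self_mem_nhdsWithin] with h hh using step h hh m hm0 hmM
  have hc : ContinuousAt (fun m => F 0 m) M := by
    have hI : ∀ j : ℕ, ContinuousAt
        (fun m => momentumAvg (2 * ((j:ℝ) + 1) * β * ((n:ℝ)/2) ^ 2 / m)) M := fun j =>
      momentumAvg_continuous.continuousAt.comp (continuousAt_const.div continuousAt_id hm.ne')
    refine (continuousAt_id.div_const _).mul ?_
    exact tendsto_finsetSum _ fun j _ => ((hI j).pow 3).const_mul _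
  have hd : F 0 M ≤ (n:ℝ)/2 - M := by
    refine le_of_tendsto_of_tendsto (b := 𝓝[<] M) (hc.tendsto.mono_left nhdsWithin_le_nhds)
      ((tendsto_const_nhds.sub tendsto_id).mono_left nhdsWithin_le_nhds) ?_
    filter_upwards [Ioo_mem_nhdsLT hm] with m hm' using step2 m hm'.1 hm'.2
  simpa [F] using hd

/-- Gaussian lower bound for the momentum average. -/
theorem momentumAvg_ge (t : ℝ) (ht : 0 ≤ t) :
    ∫ x in (-(1/2):ℝ)..(1/2), Real.exp (-(2 * Real.pi ^ 2 * t) * x ^ 2) ≤ momentumAvg t := by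
  have hp : Function.Periodic (fun x => Real.exp (-(t * (1 - Real.cos (2 * Real.pi * x))))) 1 := by
    intro x; simp only [mul_add, mul_one, Real.cos_add_two_pi]
  have e := hp.intervalIntegral_add_eq (-(1/2)) 0
  norm_num at e
  rw [momentumAvg, ← e]
  refine intervalIntegral.integral_mono_on (by norm_num)
    ((by fun_prop : Continuous _).intervalIntegrable _ _)
    ((by fun_prop : Continuous _).intervalIntegrable _ _) fun x _ => ?_
  refine Real.exp_le_exp.mpr ?_
  have := mul_le_mul_of_nonneg_left (Real.one_sub_sq_div_two_le_cos (x := 2 * Real.pi * x)) ht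
  linarith

theorem scaled_gauss_tendsto (t : ℝ) (ht : 0 < t) :
    Tendsto (fun β : ℝ => √β *
        ∫ x in (-(1/2):ℝ)..(1/2), Real.exp (-(2 * Real.pi ^ 2 * (t * β)) * x ^ 2))
      atTop (𝓝 (√(1 / (2 * Real.pi * t)))) := by
  have hb : 0 < 2 * Real.pi ^ 2 * t := by positivity
  have h := intervalIntegral_tendsto_integral (integrable_exp_neg_mul_sq hb)
    (tendsto_neg_atTop_atBot.comp (Real.tendsto_sqrt_atTop.atTop_div_const two_pos))
    (Real.tendsto_sqrt_atTop.atTop_div_const two_pos)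
  rw [integral_gaussian, show Real.pi / (2 * Real.pi ^ 2 * t) = 1 / (2 * Real.pi * t) by
    field_simp] at h
  refine h.congr' ?_
  filter_upwards [eventually_gt_atTop (0:ℝ)] with β hβ
  have hs : (√β) ≠ 0 := (Real.sqrt_pos.mpr hβ).ne'
  have e : ∀ x : ℝ, Real.exp (-(2 * Real.pi ^ 2 * (t * β)) * x ^ 2) =
      Real.exp (-(2 * Real.pi ^ 2 * t) * (√β * x) ^ 2) := fun x => by
    rw [mul_pow, Real.sq_sqrt hβ.le]; ring_nf
  simp only [e]
  rw [intervalIntegral.integral_comp_mul_left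
      (f := fun x => Real.exp (-(2 * Real.pi ^ 2 * t) * x ^ 2)) hs, smul_eq_mul, ← mul_assoc,
    mul_inv_cancel₀ hs, one_mul]
  simp only [Function.comp_apply]
  congr 1 <;> ring

theorem zeta_partial (c : ℝ) (hc : c < (riemannZeta (3/2 : ℂ)).re) :
    ∃ J : ℕ, c < ∑ j ∈ range J, 1 / ((j:ℝ) + 1) ^ ((3:ℝ)/2) := by
  have hs : Summable fun j : ℕ => 1 / ((j:ℝ) + 1) ^ ((3:ℝ)/2) := by
    have h := Real.summable_one_div_nat_rpow.mpr (show (1:ℝ) < 3/2 by norm_num)
    simpa using (summable_nat_add_iff 1).mpr h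
  have hz : (riemannZeta (3/2 : ℂ)).re = ∑' j : ℕ, 1 / ((j:ℝ) + 1) ^ ((3:ℝ)/2) := by
    rw [zeta_eq_tsum_one_div_nat_add_one_cpow (by norm_num)]
    have e : ∀ j : ℕ, 1 / ((j:ℂ) + 1) ^ (3/2 : ℂ) =
        ((1 / ((j:ℝ) + 1) ^ ((3:ℝ)/2) : ℝ) : ℂ) := fun j => by
      rw [Complex.ofReal_div, Complex.ofReal_one, Complex.ofReal_cpow (by positivity)]
      push_cast
      rfl
    simp only [e]
    rw [← Complex.ofReal_tsum, Complex.ofReal_re]
  rw [hz] at hc
  exact ((tendsto_order.mp hs.hasSum.tendsto_sum_nat).1 c hc).exists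

/-- `(β^{1/2})^3 = β^{3/2}`. -/
theorem sqrt_cube (x : ℝ) (hx : 0 ≤ x) : √x ^ 3 = x ^ ((3:ℝ)/2) := by
  rw [Real.sqrt_eq_rpow, ← Real.rpow_natCast, ← Real.rpow_mul hx]
  norm_num

/-- The sharp low-temperature inequality. -/
theorem asymptotic_bound (hn : 1 ≤ n) (c : ℝ)
    (hc : c < (riemannZeta (3/2 : ℂ)).re /
      (8 * Real.pi ^ ((3:ℝ)/2) * ((n:ℝ)/2) ^ ((3:ℝ)/2))) :
    ∀ᶠ β in atTop, c ≤ β ^ ((3:ℝ)/2) * ((n:ℝ)/2 - magnetization n β) := by
  set S := (n:ℝ)/2 with hS
  have hS0 : 0 < S := by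
    have : (0:ℝ) < n := by exact_mod_cast hn
    positivity
  set K := 8 * Real.pi ^ ((3:ℝ)/2) * S ^ ((3:ℝ)/2) with hK
  have hK0 : 0 < K := by positivity
  rw [lt_div_iff₀ hK0] at hc
  obtain ⟨J, hJ⟩ := zeta_partial _ hc
  set Z0 := ∑ j ∈ range J, 1 / ((j:ℝ) + 1) ^ ((3:ℝ)/2) with hZ
  -- the limiting coefficient as a function of `u = 1 - η`
  let G : ℝ → ℝ := fun u => u * ∑ j ∈ range J, √(1 / (2 * Real.pi * (2 * ((j:ℝ) + 1) * S / u))) ^ 3
  have hG1 : G 1 = Z0 / K := by
    simp only [G, one_mul, div_one, hZ, sum_div]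
    refine sum_congr rfl fun j _ => ?_
    have hj : (0:ℝ) ≤ (j:ℝ) + 1 := by positivity
    rw [show 2 * Real.pi * (2 * ((j:ℝ) + 1) * S) = 4 * (Real.pi * S * ((j:ℝ) + 1)) by ring,
      Real.sqrt_div zero_le_one, Real.sqrt_one, Real.sqrt_mul (by norm_num : (0:ℝ) ≤ 4),
      show √(4:ℝ) = 2 by rw [show (4:ℝ) = 2 ^ 2 by norm_num, Real.sqrt_sq two_pos.le],
      div_pow, one_pow, mul_pow, sqrt_cube _ (by positivity),
      Real.mul_rpow (by positivity) hj, Real.mul_rpow Real.pi_pos.le hS0.le, hK]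
    field_simp
    norm_num
  have hcG : c < G 1 := by rw [hG1, lt_div_iff₀ hK0]; exact hJ
  have hGc : ContinuousAt G 1 := by
    refine continuousAt_id.mul (tendsto_finsetSum _ fun j _ => ?_)
    refine ((Real.continuous_sqrt.continuousAt.comp ?_).pow 3)
    refine continuousAt_const.div ?_ (by positivity)
    exact continuousAt_const.mul (continuousAt_const.div continuousAt_id one_ne_zero)
  obtain ⟨u, hu, hu1⟩ : ∃ u, c < G u ∧ u ∈ Set.Ioo (0:ℝ) 1 :=
    ((((hGc.tendsto.mono_left nhdsWithin_le_nhds).eventually_const_lt hcG)).and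
      (Ioo_mem_nhdsLT one_pos)).exists
  let A : ℕ → ℝ → ℝ := fun j β => (√β *
      ∫ x in (-(1/2):ℝ)..(1/2), Real.exp (-(2 * Real.pi ^ 2 * (2 * ((j:ℝ) + 1) * S / u * β)) * x ^ 2)) ^ 3
  have hlim : Tendsto (fun β => u * ∑ j ∈ range J, A j β) atTop (𝓝 (G u)) :=
    (tendsto_finsetSum _ fun j _ =>
      (scaled_gauss_tendsto _ (by have := hu1.1; positivity)).pow 3).const_mul _
  have hbig : Tendsto (fun β : ℝ => β ^ ((3:ℝ)/2) * (S * (1 - u))) atTop atTop :=
    (tendsto_rpow_atTop (by norm_num)).atTop_mul_const (by nlinarith [hu1.2])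
  filter_upwards [(tendsto_order.mp hlim).1 c hu, hbig.eventually_ge_atTop c,
    eventually_gt_atTop (0:ℝ)] with β hAc hbigc hβ
  have hbr : 0 ≤ β ^ ((3:ℝ)/2) := Real.rpow_nonneg hβ.le _
  rcases le_or_gt (magnetization n β) (u * S) with hle | hgt
  · refine hbigc.trans (mul_le_mul_of_nonneg_left ?_ hbr)
    linarith
  have hM : 0 < magnetization n β := lt_trans (mul_pos hu1.1 hS0) hgt
  have h1 := infinite_volume_bound hn β hβ hM J
  rw [← hS] at h1
  refine hAc.le.trans ?_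
  refine le_trans ?_ (mul_le_mul_of_nonneg_left h1 hbr)
  set M := magnetization n β with hMdef
  have hAI : ∀ j : ℕ, A j β ≤
      β ^ ((3:ℝ)/2) * momentumAvg (2 * ((j:ℝ) + 1) * β * S ^ 2 / M) ^ 3 := by
    intro j
    have hu0 := hu1.1
    have h2 : momentumAvg (2 * ((j:ℝ) + 1) * S / u * β) ≤
        momentumAvg (2 * ((j:ℝ) + 1) * β * S ^ 2 / M) := by
      refine intervalIntegral.integral_mono_on zero_le_one
        ((by fun_prop : Continuous _).intervalIntegrable _ _)
        ((by fun_prop : Continuous _).intervalIntegrable _ _) fun x _ => ?_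
      refine Real.exp_le_exp.mpr (neg_le_neg (mul_le_mul_of_nonneg_right ?_
        (sub_nonneg.mpr (Real.cos_le_one _))))
      calc 2 * ((j:ℝ) + 1) * β * S ^ 2 / M ≤ 2 * ((j:ℝ) + 1) * β * S ^ 2 / (u * S) := by
            gcongr
        _ = _ := by field_simp
    have h3 := (momentumAvg_ge (2 * ((j:ℝ) + 1) * S / u * β) (by positivity)).trans h2
    simp only [A, mul_pow, sqrt_cube β hβ.le]
    refine mul_le_mul_of_nonneg_left (pow_le_pow_left₀ ?_ h3 3) hbr
    exact intervalIntegral.integral_nonneg (by norm_num) fun _ _ => (Real.exp_pos _).le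
  have hMu : u ≤ M / S := by rw [le_div_iff₀ hS0]; exact hgt.le
  calc u * ∑ j ∈ range J, A j β
      ≤ u * ∑ j ∈ range J, β ^ ((3:ℝ)/2) *
          momentumAvg (2 * ((j:ℝ) + 1) * β * S ^ 2 / M) ^ 3 :=
        mul_le_mul_of_nonneg_left (sum_le_sum fun j _ => hAI j) hu1.1.le
    _ ≤ M / S * ∑ j ∈ range J, β ^ ((3:ℝ)/2) *
          momentumAvg (2 * ((j:ℝ) + 1) * β * S ^ 2 / M) ^ 3 :=
        mul_le_mul_of_nonneg_right hMu (sum_nonneg fun j _ =>
          mul_nonneg hbr (pow_nonneg (momentumAvg_nonneg _) 3))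
    _ = _ := by rw [← mul_sum]; ring

end Vale.Agent.P361
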