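import Vale.Agent.P361.Bound

/-!
Elementary properties of the finite- and infinite-volume pressure.
-/

open Matrix Finset Filter Topology

namespace Vale.Agent.P361

variable {n N : ℕ}

theorem pressureN_eq (β h : ℝ) :
    pressureN n N β h = Real.log (zPart (expo n N β h)) / (β * (Fintype.card (Site N) : ℝ)) := rfl

theorem abs_gexp_totalSpin3 {K : Matrix (Config n N) (Config n N) ℂ} (hK : K.IsHermitian) :
    |gexp hK (totalSpin3 n N)| ≤ (n : ℝ) / 2 * (Fintype.card (Site N) : ℝ) := by
  rw [totalSpin3, gexp_sum]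
  refine (abs_sum_le_sum_abs _ _).trans ?_
  refine (sum_le_card_nsmul _ _ ((n:ℝ)/2) fun x _ => ?_).trans (le_of_eq ?_)
  · rw [spin3, atSite_diagonal, abs_le]
    have hlow := gexp_diagonal_mono hK (fun _ => -((n:ℝ)/2))
      (fun σ : Config n N => spinVal n (σ x)) fun σ => (abs_le.mp (abs_spinVal_le _)).1
    have hup := gexp_diagonal_mono hK (fun σ : Config n N => spinVal n (σ x))
      (fun _ => (n:ℝ)/2) fun σ => (abs_le.mp (abs_spinVal_le _)).2
    rw [← smul_one_eq_diagonal, gexp_smul, gexp_one, mul_one] at hlow hup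
    exact ⟨hlow, hup⟩
  · rw [nsmul_eq_mul, card_univ, mul_comm]

theorem abs_magN_le (β h : ℝ) : |magN n N β h| ≤ (n : ℝ) / 2 := by
  rw [magN, abs_div, abs_of_pos (card_site_pos (N := N)), div_le_iff₀ card_site_pos]
  exact abs_gexp_totalSpin3 _

theorem pressureN_slope (β h h' : ℝ) (hβ : 0 < β) :
    pressureN n N β h + (h' - h) * magN n N β h ≤ pressureN n N β h' := by
  have e : expo n N β h + ((β * (h' - h) : ℝ) : ℂ) • totalSpin3 n N = expo n N β h' := by
    simp only [expo, smul_sub, smul_smul]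
    push_cast
    module
  have hH : (expo n N β h + ((β * (h' - h) : ℝ) : ℂ) • totalSpin3 n N).IsHermitian := by
    rw [e]; exact expo_isHermitian β h'
  have h1 := log_zPart_add (expo_isHermitian (n := n) (N := N) β h) hH
  rw [e, gexp_smul] at h1
  rw [pressureN_eq, pressureN_eq, magN]
  have hL := card_site_pos (N := N)
  calc Real.log (zPart (expo n N β h)) / (β * (Fintype.card (Site N) : ℝ)) +
        (h' - h) * (gexp _ (totalSpin3 n N) / (Fintype.card (Site N) : ℝ))
      = (Real.log (zPart (expo n N β h)) + β * (h' - h) * gexp _ (totalSpin3 n N)) /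
          (β * (Fintype.card (Site N) : ℝ)) := by field_simp
    _ ≤ _ := div_le_div_of_nonneg_right h1 (by positivity)

theorem sum_adj_const_le (x : Site N) (c : ℝ) (hc : 0 ≤ c) :
    ∑ y, (if Adj x y then c else 0) ≤ 6 * c := by
  have h := sum_adj_le x (fun _ => c) (fun _ => c) (fun _ => hc) (fun _ _ _ _ => le_refl _)
  simp only [sum_const, card_univ, Fintype.card_fin, nsmul_eq_mul] at h
  push_cast at h
  linarith

theorem pressureN_zero_mem (β : ℝ) (hβ : 0 < β) :
    0 ≤ pressureN n N β 0 ∧
      pressureN n N β 0 ≤ Real.log ((n : ℝ) + 1) / β + 3 * ((n : ℝ) / 2) ^ 2 := by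
  have hK := expo_isHermitian (n := n) (N := N) β 0
  have hL := card_site_pos (N := N)
  rw [pressureN_eq]
  constructor
  · refine div_nonneg (Real.log_nonneg ?_) (by positivity)
    refine le_trans ?_ (exp_diag_le_zPart hK (fun _ => 0))
    refine Real.one_le_exp ?_
    have hd : ∀ x y : Site N, Adj x y →
        (spinDot (n := n) x y) (fun _ => 0) (fun _ => 0) = ((((n:ℝ)/2) ^ 2 : ℝ) : ℂ) := by
      intro x y h
      rw [spinDot_eq]
      simp [opP, opQ, opZ, atSite_mul_atSite_apply h.ne, spinPlus, spinMinus, spin3, spinVal]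
      ring
    simp only [expo, hamiltonian, Matrix.smul_apply, Matrix.sub_apply, Matrix.sum_apply,
      smul_eq_mul, Complex.ofReal_zero, zero_mul, sub_zero]
    rw [← mul_assoc, show (-(β:ℂ)) * -(1/2) = ((β/2 : ℝ) : ℂ) by push_cast; ring,
      Complex.re_ofReal_mul]
    refine mul_nonneg (by positivity) ?_
    rw [Complex.re_sum]
    refine sum_nonneg fun x _ => ?_
    rw [Complex.re_sum]
    refine sum_nonneg fun y _ => ?_
    split_ifs with h
    · rw [hd x y h, Complex.ofReal_re]; positivity
    · simp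
  · have h1 := log_zPart_add hK (B := -expo n N β 0) (by simp)
    rw [add_neg_cancel] at h1
    have hz : zPart (0 : Matrix (Config n N) (Config n N) ℂ) =
        ((n:ℝ) + 1) ^ Fintype.card (Site N) := by
      rw [zPart, NormedSpace.exp_zero, trace_one, Complex.natCast_re, Fintype.card_fun,
        Fintype.card_fin]
      push_cast
      ring
    rw [hz, Real.log_pow, neg_expo] at h1
    simp only [Complex.ofReal_zero, neg_zero, zero_smul, add_zero] at h1
    rw [gexp_smul, show (-(1/2 : ℂ)) = ((-(1/2) : ℝ) : ℂ) by simp, gexp_smul, gexp_sum] at h1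
    have h2 : ∑ x : Site N, gexp hK (∑ y, if Adj x y then spinDot x y else 0) ≤
        (Fintype.card (Site N) : ℝ) * (6 * ((n:ℝ)/2) ^ 2) := by
      refine (sum_le_card_nsmul _ _ (6 * ((n:ℝ)/2) ^ 2) fun x _ => ?_).trans
        (le_of_eq (by rw [nsmul_eq_mul, card_univ]))
      rw [gexp_sum]
      refine le_trans (sum_le_sum fun y _ => ?_) (sum_adj_const_le x _ (by positivity))
      split_ifs with h
      · exact gexp_spinDot_le h.ne hK
      · exact (gexp_zero hK).le
    rw [div_le_iff₀ (by positivity)]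
    have h4 := mul_le_mul_of_nonneg_left h2 (show (0:ℝ) ≤ β / 2 by positivity)
    calc Real.log (zPart (expo n N β 0))
        ≤ (Fintype.card (Site N) : ℝ) * Real.log ((n:ℝ) + 1)
          + β / 2 * ((Fintype.card (Site N) : ℝ) * (6 * ((n:ℝ)/2) ^ 2)) := by linarith
      _ = _ := by field_simp; ring

/-- A bound on `|p_N(h)|`, uniform in `N`. -/
theorem abs_pressureN_le (β h : ℝ) (hβ : 0 < β) :
    |pressureN n N β h| ≤
      Real.log ((n : ℝ) + 1) / β + 3 * ((n : ℝ) / 2) ^ 2 + |h| * ((n : ℝ) / 2) := by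
  obtain ⟨h0, h1⟩ := pressureN_zero_mem (n := n) (N := N) β hβ
  have a := pressureN_slope (n := n) (N := N) β 0 h hβ
  have b := pressureN_slope (n := n) (N := N) β h 0 hβ
  have ha : |h * magN n N β 0| ≤ |h| * ((n:ℝ)/2) := by
    rw [abs_mul]; exact mul_le_mul_of_nonneg_left (abs_magN_le β 0) (abs_nonneg _)
  have hb : |h * magN n N β h| ≤ |h| * ((n:ℝ)/2) := by
    rw [abs_mul]; exact mul_le_mul_of_nonneg_left (abs_magN_le β h) (abs_nonneg _)
  rw [abs_le] at ha hb ⊢
  constructor <;> linarith [ha.1, ha.2, hb.1, hb.2]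

theorem pressureN_bdd_above (β h : ℝ) (hβ : 0 < β) :
    IsBoundedUnder (· ≤ ·) atTop fun N => pressureN n N β h :=
  isBoundedUnder_of ⟨_, fun N => (abs_le.mp (abs_pressureN_le (N := N) β h hβ)).2⟩

theorem pressureN_cobdd (β h : ℝ) (hβ : 0 < β) :
    IsCoboundedUnder (· ≤ ·) atTop fun N => pressureN n N β h :=
  (isBoundedUnder_of (r := (· ≥ ·))
    ⟨_, fun N => (abs_le.mp (abs_pressureN_le (N := N) β h hβ)).1⟩).isCoboundedUnder_le

theorem pressureN_eventually_lt (β h ε : ℝ) (hβ : 0 < β) (hε : 0 < ε) :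
    ∀ᶠ N in atTop, pressureN n N β h < pressure n β h + ε :=
  eventually_lt_of_limsup_lt (show limsup (fun N => pressureN n N β h) atTop < _ from
    lt_add_of_pos_right _ hε) (pressureN_bdd_above β h hβ)

theorem pressure_convex (β : ℝ) (hβ : 0 < β) : ConvexOn ℝ Set.univ (pressure n β) := by
  refine ⟨convex_univ, fun x _ y _ a b ha hb hab => ?_⟩
  simp only [smul_eq_mul]
  refine le_of_forall_pos_le_add fun ε hε => ?_
  refine limsup_le_of_le (pressureN_cobdd β _ hβ) ?_
  filter_upwards [pressureN_eventually_lt (n := n) β x ε hβ hε,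
    pressureN_eventually_lt (n := n) β y ε hβ hε] with N hx hy
  have h1 := mul_le_mul_of_nonneg_left (pressureN_slope (n := n) (N := N) β (a*x+b*y) x hβ) ha
  have h2 := mul_le_mul_of_nonneg_left (pressureN_slope (n := n) (N := N) β (a*x+b*y) y hβ) hb
  have h3 := mul_le_mul_of_nonneg_left hx.le ha
  have h4 := mul_le_mul_of_nonneg_left hy.le hb
  have hb' : b = 1 - a := by linarith
  subst hb'
  linarith

theorem magnetization_hasDeriv (β : ℝ) (hβ : 0 < β) :
    HasDerivWithinAt (pressure n β) (magnetization n β) (Set.Ioi 0) 0 :=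
  (pressure_convex β hβ).hasDerivWithinAt_rightDeriv_of_mem_interior (by simp)

theorem frequently_magN (β h ε : ℝ) (hβ : 0 < β) (hh : 0 < h) (hε : 0 < ε) :
    ∃ᶠ N in atTop, magnetization n β - ε < magN n N β h := by
  by_contra hcon
  rw [not_frequently] at hcon
  have hslope : magnetization n β ≤ slope (pressure n β) 0 h :=
    (pressure_convex β hβ).rightDeriv_le_slope_of_mem_interior (by simp) (Set.mem_univ _) hh
  rw [slope_def_field, sub_zero, le_div_iff₀ hh] at hslope
  have : pressure n β h ≤ pressure n β 0 + ε * h / 2 + h * (magnetization n β - ε) := by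
    refine limsup_le_of_le (pressureN_cobdd β _ hβ) ?_
    filter_upwards [hcon, pressureN_eventually_lt (n := n) β 0 (ε * h / 2) hβ (by positivity)]
      with N hm h0
    have h1 := pressureN_slope (n := n) (N := N) β h 0 hβ
    have h2 := mul_le_mul_of_nonneg_left (not_lt.mp hm) hh.le
    linarith
  nlinarith [mul_pos hε hh]

theorem magnetization_le (β : ℝ) (hβ : 0 < β) : magnetization n β ≤ (n : ℝ) / 2 := by
  refine le_of_forall_pos_le_add fun ε hε => ?_
  obtain ⟨N, hN⟩ := (frequently_magN (n := n) β 1 ε hβ one_pos hε).exists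
  linarith [(abs_le.mp (abs_magN_le (n := n) (N := N) β 1)).2]

end Vale.Agent.P361
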