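import Vale.Agent.P361.Defs
import Vale.Agent.P361.Gibbs

/-!
Algebra of spin operators on finite products of sites.
-/

open Matrix Finset

namespace Vale.Agent.P361

variable {n N : ℕ}

/-- `diag √(n-i)`. -/
noncomputable def kUp (n : ℕ) : Matrix (Fin (n + 1)) (Fin (n + 1)) ℂ :=
  diagonal fun i => (Real.sqrt ((n : ℝ) - (i : ℕ)) : ℂ)

/-- `e_j ↦ √j e_{j-1}`. -/
noncomputable def kDown (n : ℕ) : Matrix (Fin (n + 1)) (Fin (n + 1)) ℂ := fun i j =>
  if (i : ℕ) + 1 = j then (Real.sqrt (j : ℕ) : ℂ) else 0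

theorem fin_le_real (i : Fin (n + 1)) : ((i : ℕ) : ℝ) ≤ n := by
  exact_mod_cast Fin.is_le i

theorem spinMinus_mul_spinPlus :
    spinMinus n * spinPlus n =
      diagonal (fun i : Fin (n + 1) => (((i : ℕ) : ℝ) * ((n : ℝ) + 1 - (i : ℕ)) : ℂ)) := by
  ext i j
  have hf : ∀ j : Fin (n + 1), (0:ℝ) ≤ ((j : ℕ) : ℝ) * ((n : ℝ) + 1 - (j : ℕ)) := fun j =>
    mul_nonneg (Nat.cast_nonneg _) (by linarith [fin_le_real j])
  simp only [spinMinus, Matrix.mul_apply, conjTranspose_apply, spinPlus]
  rcases Nat.eq_zero_or_pos (i : ℕ) with hi | hi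
  · rw [sum_eq_zero fun k _ => by rw [if_neg (by omega)]; simp]
    by_cases hij : i = j
    · subst hij; simp [hi]
    · simp [hij]
  · rw [sum_eq_single (⟨(i : ℕ) - 1, by omega⟩ : Fin (n + 1))]
    · simp only [Nat.sub_add_cancel hi, if_true]
      by_cases hij : i = j
      · subst hij
        simp only [if_true, Complex.star_def, Complex.conj_ofReal, ← Complex.ofReal_mul,
          Real.mul_self_sqrt (hf i)]
        simp
      · have : (i : ℕ) ≠ j := fun h => hij (Fin.ext h)
        simp [hij, this]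
    · intro k _ hk
      have : (k : ℕ) + 1 ≠ i := fun h => hk (Fin.ext (by simp; omega))
      simp [this]
    · simp

theorem spinPlus_mul_spinMinus :
    spinPlus n * spinMinus n =
      diagonal (fun i : Fin (n + 1) =>
        ((((i : ℕ) : ℝ) + 1) * ((n : ℝ) - (i : ℕ)) : ℂ)) := by
  ext i j
  simp only [spinMinus, Matrix.mul_apply, conjTranspose_apply, spinPlus]
  by_cases hi : (i : ℕ) < n
  · rw [sum_eq_single (⟨(i : ℕ) + 1, by omega⟩ : Fin (n + 1))]
    · by_cases hij : i = j
      · subst hij
        have h : ((i : ℕ) : ℝ) + 1 ≤ n := by exact_mod_cast hi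
        have h0 : (0:ℝ) ≤ (((i : ℕ) : ℝ) + 1) * ((n : ℝ) + 1 - (((i : ℕ) : ℝ) + 1)) :=
          mul_nonneg (by positivity) (by linarith)
        simp only [if_true, Complex.star_def, Complex.conj_ofReal, ← Complex.ofReal_mul,
          Nat.cast_add, Nat.cast_one, Real.mul_self_sqrt h0]
        simp
      · have : (j : ℕ) ≠ i := fun h => hij (Fin.ext h.symm)
        simp [hij, this]
    · intro k _ hk
      have : (i : ℕ) + 1 ≠ k := fun h => hk (Fin.ext (by simp; omega))
      simp [this]
    · simp
  · rw [sum_eq_zero fun k _ => by rw [if_neg (by omega)]; simp]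
    have : (i : ℕ) = n := by omega
    by_cases hij : i = j
    · subst hij; simp [this]
    · simp [hij]

theorem spin3_mul_spinPlus :
    spin3 n * spinPlus n - spinPlus n * spin3 n = spinPlus n := by
  ext i j
  simp only [spin3, Matrix.sub_apply, diagonal_mul, mul_diagonal, spinPlus, spinVal]
  split_ifs with h
  · rw [← h]; push_cast; ring
  · simp

theorem spin3_conjTranspose : (spin3 n)ᴴ = spin3 n := by
  simp [spin3, diagonal_conjTranspose, Pi.star_def]

theorem spin3_mul_spinMinus :
    spin3 n * spinMinus n - spinMinus n * spin3 n = -spinMinus n := by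
  have h := congrArg conjTranspose (spin3_mul_spinPlus (n := n))
  simp only [conjTranspose_sub, conjTranspose_mul, spin3_conjTranspose] at h
  rw [spinMinus, ← neg_sub, h]

theorem spinPlus_spinMinus_comm :
    spinPlus n * spinMinus n - spinMinus n * spinPlus n = (2 : ℂ) • spin3 n := by
  rw [spinPlus_mul_spinMinus, spinMinus_mul_spinPlus, spin3, diagonal_sub, ← diagonal_smul]
  congr 1
  funext i
  simp [spinVal]
  ring

theorem kUp_conjTranspose_mul :
    (kUp n)ᴴ * kUp n = ((n : ℂ) / 2) • 1 + spin3 n := by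
  rw [kUp, diagonal_conjTranspose, diagonal_mul_diagonal, spin3,
    ← diagonal_one, ← diagonal_smul, diagonal_add]
  congr 1
  funext i
  have h : (0:ℝ) ≤ (n : ℝ) - (i : ℕ) := by linarith [fin_le_real i]
  simp [← Complex.ofReal_mul, Real.mul_self_sqrt h, spinVal]
  ring

theorem kDown_conjTranspose_mul :
    (kDown n)ᴴ * kDown n = ((n : ℂ) / 2) • 1 - spin3 n := by
  rw [spin3, ← diagonal_one, ← diagonal_smul, diagonal_sub]
  ext i j
  simp only [Matrix.mul_apply, conjTranspose_apply, kDown]
  rcases Nat.eq_zero_or_pos (i : ℕ) with hi | hi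
  · rw [sum_eq_zero fun k _ => by rw [if_neg (by omega)]; simp]
    by_cases hij : i = j
    · subst hij; simp [spinVal, hi]
    · simp [hij]
  · rw [sum_eq_single (⟨(i : ℕ) - 1, by omega⟩ : Fin (n + 1))]
    · simp only [Nat.sub_add_cancel hi, if_true]
      by_cases hij : i = j
      · subst hij
        simp [← Complex.ofReal_mul, Real.mul_self_sqrt (Nat.cast_nonneg _), spinVal]
      · have : (i : ℕ) ≠ j := fun h => hij (Fin.ext h)
        simp [hij, this]
    · intro k _ hk
      have : (k : ℕ) + 1 ≠ i := fun h => hk (Fin.ext (by simp; omega))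
      simp [this]
    · simp

theorem kUp_conjTranspose_mul_kDown : (kUp n)ᴴ * kDown n = spinPlus n := by
  ext i j
  rw [kUp, diagonal_conjTranspose, diagonal_mul]
  simp only [kDown, spinPlus]
  split_ifs with h
  · have hj : ((j : ℕ) : ℝ) = ((i : ℕ) : ℝ) + 1 := by rw [← h]; push_cast; ring
    have h1 : (n : ℝ) + 1 - (j : ℕ) = (n : ℝ) - (i : ℕ) := by rw [hj]; ring
    rw [h1, Real.sqrt_mul (Nat.cast_nonneg _)]
    simp
    ring
  · simp

theorem kDown_conjTranspose_mul_kUp : (kDown n)ᴴ * kUp n = spinMinus n := by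
  have h := congrArg conjTranspose (kUp_conjTranspose_mul_kDown (n := n))
  simpa [spinMinus] using h

/-! ### Operators at sites -/

theorem atSite_mul_apply (x : Site N) (M : Matrix (Fin (n+1)) (Fin (n+1)) ℂ)
    (T : Matrix (Config n N) (Config n N) ℂ) (σ τ : Config n N) :
    (atSite x M * T) σ τ = ∑ a, M (σ x) a * T (Function.update σ x a) τ := by
  rw [Matrix.mul_apply]
  refine (Fintype.sum_of_injective (Function.update σ x) (Function.update_injective σ x) _ _
    ?_ ?_).symm
  · intro ρ hρ
    have : ¬ ∀ y, y ≠ x → σ y = ρ y := fun h => hρ ⟨ρ x, by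
      funext y
      rcases eq_or_ne y x with rfl | hy
      · simp
      · simp [hy, h y hy]⟩
    simp [atSite, this]
  · intro a
    simp +contextual [atSite]

theorem atSite_mul (x : Site N) (A B : Matrix (Fin (n+1)) (Fin (n+1)) ℂ) :
    atSite x A * atSite x B = atSite x (A * B) := by
  ext σ τ
  rw [atSite_mul_apply]
  by_cases h : ∀ y, y ≠ x → σ y = τ y
  · simp +contextual [atSite, h, Matrix.mul_apply]
  · have h' : ∀ a, ¬ ∀ y, y ≠ x → Function.update σ x a y = τ y := fun a ha =>
      h fun y hy => by simpa [hy] using ha y hy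
    simp [atSite, h, h']

theorem atSite_mul_atSite_apply {x y : Site N} (hxy : x ≠ y)
    (A B : Matrix (Fin (n+1)) (Fin (n+1)) ℂ) (σ τ : Config n N) :
    (atSite x A * atSite y B) σ τ =
      if ∀ z, z ≠ x → z ≠ y → σ z = τ z then A (σ x) (τ x) * B (σ y) (τ y) else 0 := by
  rw [atSite_mul_apply, sum_eq_single (τ x)]
  · simp only [atSite]
    rw [Function.update_of_ne hxy.symm]
    by_cases h : ∀ z, z ≠ x → z ≠ y → σ z = τ z
    · rw [if_pos h, if_pos]
      intro z hz
      rcases eq_or_ne z x with rfl | hzx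
      · simp
      · simpa [hzx] using h z hzx hz
    · rw [if_neg h, if_neg, mul_zero]
      intro hc
      exact h fun z hzx hzy => by simpa [hzx] using hc z hzy
  · intro a _ ha
    rw [atSite, if_neg, mul_zero]
    intro hc
    exact ha (by simpa using hc x hxy)
  · simp

theorem atSite_comm {x y : Site N} (hxy : x ≠ y)
    (A B : Matrix (Fin (n+1)) (Fin (n+1)) ℂ) :
    atSite x A * atSite y B = atSite y B * atSite x A := by
  ext σ τ
  rw [atSite_mul_atSite_apply hxy, atSite_mul_atSite_apply hxy.symm]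
  by_cases h : ∀ z, z ≠ x → z ≠ y → σ z = τ z
  · rw [if_pos h, if_pos fun z a b => h z b a, mul_comm]
  · rw [if_neg h, if_neg fun h' => h fun z a b => h' z b a]

theorem atSite_one (x : Site N) : atSite x (1 : Matrix (Fin (n+1)) (Fin (n+1)) ℂ) = 1 := by
  ext σ τ
  by_cases h : σ = τ
  · subst h; simp [atSite]
  · rw [Matrix.one_apply_ne h]
    simp only [atSite]
    split_ifs with h'
    · refine Matrix.one_apply_ne fun hx => h (funext fun y => ?_)
      rcases eq_or_ne y x with rfl | hy
      · exact hx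
      · exact h' y hy
    · rfl

theorem atSite_add (x : Site N) (A B : Matrix (Fin (n+1)) (Fin (n+1)) ℂ) :
    atSite x (A + B) = atSite x A + atSite x B := by
  ext σ τ; simp [atSite]; split_ifs <;> simp

theorem atSite_sub (x : Site N) (A B : Matrix (Fin (n+1)) (Fin (n+1)) ℂ) :
    atSite x (A - B) = atSite x A - atSite x B := by
  ext σ τ; simp [atSite]; split_ifs <;> simp

theorem atSite_smul (x : Site N) (c : ℂ) (A : Matrix (Fin (n+1)) (Fin (n+1)) ℂ) :
    atSite x (c • A) = c • atSite x A := by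
  ext σ τ; simp [atSite]

theorem atSite_neg (x : Site N) (A : Matrix (Fin (n+1)) (Fin (n+1)) ℂ) :
    atSite x (-A) = -atSite x A := by
  ext σ τ; simp [atSite]; split_ifs <;> simp

theorem atSite_conjTranspose (x : Site N) (A : Matrix (Fin (n+1)) (Fin (n+1)) ℂ) :
    (atSite x A)ᴴ = atSite x Aᴴ := by
  ext σ τ
  simp only [conjTranspose_apply, atSite, eq_comm (a := τ _) (b := σ _)]
  split_ifs <;> simp

theorem atSite_diagonal (x : Site N) (d : Fin (n+1) → ℂ) :
    atSite x (diagonal d) = (diagonal fun σ : Config n N => d (σ x)) := by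
  ext σ τ
  by_cases h : σ = τ
  · subst h; simp [atSite]
  · rw [diagonal_apply_ne _ h]
    simp only [atSite]
    split_ifs with h'
    · refine diagonal_apply_ne _ fun hx => h (funext fun y => ?_)
      rcases eq_or_ne y x with rfl | hy
      · exact hx
      · exact h' y hy
    · rfl

/-- Abbreviation for `S^+_x`. -/
noncomputable def opP (x : Site N) : Matrix (Config n N) (Config n N) ℂ := atSite x (spinPlus n)

/-- Abbreviation for `S^-_x`. -/
noncomputable def opQ (x : Site N) : Matrix (Config n N) (Config n N) ℂ := atSite x (spinMinus n)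

/-- Abbreviation for `S^3_x`. -/
noncomputable def opZ (x : Site N) : Matrix (Config n N) (Config n N) ℂ := atSite x (spin3 n)

theorem spinDot_eq {x y : Site N} :
    spinDot (n := n) x y =
      (1/2 : ℂ) • (opP x * opQ y + opQ x * opP y) + opZ x * opZ y := by
  simp only [spinDot, spin1, spin2, atSite_smul, atSite_add, atSite_sub, opP, opQ, opZ,
    smul_mul_smul, Matrix.mul_add, Matrix.add_mul, Matrix.mul_sub, Matrix.sub_mul]
  have h : (-Complex.I / 2) * (-Complex.I / 2) = -(1/4 : ℂ) := by
    ring_nf; simp [Complex.I_sq]; ring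
  rw [h]
  module

theorem opP_conjTranspose (x : Site N) : (opP (n := n) x)ᴴ = opQ x := atSite_conjTranspose _ _

theorem opQ_conjTranspose (x : Site N) : (opQ (n := n) x)ᴴ = opP x := by
  rw [← opP_conjTranspose, conjTranspose_conjTranspose]

theorem opZ_conjTranspose (x : Site N) : (opZ (n := n) x)ᴴ = opZ x := by
  rw [opZ, atSite_conjTranspose, spin3_conjTranspose]

theorem spinDot_isHermitian {x y : Site N} (hxy : x ≠ y) :
    (spinDot (n := n) x y).IsHermitian := by
  rw [spinDot_eq, IsHermitian]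
  simp only [conjTranspose_add, conjTranspose_smul, conjTranspose_mul, opP_conjTranspose,
    opQ_conjTranspose, opZ_conjTranspose]
  rw [show opP (n := n) y * opQ x = opQ x * opP y from atSite_comm hxy.symm _ _,
    show opQ (n := n) y * opP x = opP x * opQ y from atSite_comm hxy.symm _ _,
    show opZ (n := n) y * opZ x = opZ x * opZ y from atSite_comm hxy.symm _ _,
    add_comm (opQ x * opP y)]
  simp

theorem Adj.ne {x y : Site N} (h : Adj x y) : x ≠ y := by
  rintro rfl; simp [Adj] at h

theorem totalSpin3_isHermitian : (totalSpin3 n N).IsHermitian := by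
  rw [IsHermitian, totalSpin3, conjTranspose_sum]
  exact sum_congr rfl fun x _ => opZ_conjTranspose x

theorem hamiltonian_isHermitian : (hamiltonian n N).IsHermitian := by
  rw [IsHermitian, hamiltonian, conjTranspose_smul, conjTranspose_sum]
  congr 1
  · simp
  refine sum_congr rfl fun x _ => ?_
  rw [conjTranspose_sum]
  refine sum_congr rfl fun y _ => ?_
  split_ifs with h
  · exact spinDot_isHermitian h.ne
  · simp

/-- The exponent `-β (H - h M)`. -/
noncomputable def expo (n N : ℕ) (β h : ℝ) : Matrix (Config n N) (Config n N) ℂ :=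
  (-β : ℂ) • (hamiltonian n N - (h : ℂ) • totalSpin3 n N)

theorem expo_isHermitian (β h : ℝ) : (expo n N β h).IsHermitian := by
  simp [IsHermitian, expo, hamiltonian_isHermitian.eq, totalSpin3_isHermitian.eq]

theorem gexp_conjTranspose_mul_nonneg {ι : Type*} [Fintype ι] [DecidableEq ι] {K : Matrix ι ι ℂ}
    (hK : K.IsHermitian) (X : Matrix ι ι ℂ) : 0 ≤ gexp hK (Xᴴ * X) := by
  refine div_nonneg (sum_nonneg fun i _ => mul_nonneg (Real.exp_pos _).le ?_)
    (sum_nonneg fun i _ => (Real.exp_pos _).le)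
  simp only [inBasis_mul, inBasis_conjTranspose, Matrix.mul_apply, conjTranspose_apply,
    Complex.re_sum]
  refine sum_nonneg fun j _ => ?_
  simpa [Complex.mul_re, Complex.normSq_apply] using Complex.normSq_nonneg (inBasis hK X j i)

theorem spinDot_gap {x y : Site N} (hxy : x ≠ y) :
    (atSite x (kUp n) * atSite y (kDown n) - atSite x (kDown n) * atSite y (kUp n))ᴴ *
      (atSite x (kUp n) * atSite y (kDown n) - atSite x (kDown n) * atSite y (kUp n)) =
      (2 : ℂ) • ((((n : ℂ) / 2) ^ 2) • 1 - spinDot x y) := by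
  have key : ∀ A B C D : Matrix (Fin (n+1)) (Fin (n+1)) ℂ,
      (atSite (n := n) x A * atSite y B)ᴴ * (atSite x C * atSite y D) =
        atSite x (Aᴴ * C) * atSite y (Bᴴ * D) := by
    intro A B C D
    calc (atSite (n := n) x A * atSite y B)ᴴ * (atSite x C * atSite y D)
        = atSite y Bᴴ * ((atSite x Aᴴ * atSite x C) * atSite y D) := by
          simp only [conjTranspose_mul, atSite_conjTranspose, Matrix.mul_assoc]
      _ = atSite x (Aᴴ * C) * atSite y (Bᴴ * D) := by
          rw [atSite_mul, ← Matrix.mul_assoc, atSite_comm hxy.symm, Matrix.mul_assoc, atSite_mul]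
  rw [conjTranspose_sub, Matrix.sub_mul, Matrix.mul_sub, Matrix.mul_sub, key, key, key, key,
    kUp_conjTranspose_mul, kDown_conjTranspose_mul, kUp_conjTranspose_mul_kDown,
    kDown_conjTranspose_mul_kUp, spinDot_eq]
  simp only [atSite_add, atSite_sub, atSite_smul, atSite_one, opP, opQ, opZ, Matrix.mul_add,
    Matrix.add_mul, Matrix.mul_sub, Matrix.sub_mul, Matrix.smul_mul, Matrix.mul_smul,
    Matrix.mul_one, Matrix.one_mul]
  module

theorem gexp_spinDot_le {x y : Site N} (hxy : x ≠ y) {K : Matrix (Config n N) (Config n N) ℂ}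
    (hK : K.IsHermitian) : gexp hK (spinDot x y) ≤ ((n : ℝ) / 2) ^ 2 := by
  have h := gexp_conjTranspose_mul_nonneg hK
    (atSite x (kUp n) * atSite y (kDown n) - atSite x (kDown n) * atSite y (kUp n))
  have e : ((n : ℂ) / 2) ^ 2 = ((((n : ℝ) / 2) ^ 2 : ℝ) : ℂ) := by push_cast; ring
  rw [spinDot_gap hxy, e, show (2 : ℂ) = ((2 : ℝ) : ℂ) by simp, gexp_smul, gexp_sub, gexp_smul,
    gexp_one] at h
  linarith

theorem gexp_diagonal_mono {ι : Type*} [Fintype ι] [DecidableEq ι] {K : Matrix ι ι ℂ}
    (hK : K.IsHermitian) (f g : ι → ℝ) (h : ∀ i, f i ≤ g i) :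
    gexp hK (diagonal fun i => (f i : ℂ)) ≤ gexp hK (diagonal fun i => (g i : ℂ)) := by
  refine gexp_mono hK fun v => ?_
  simp only [dotProduct, mulVec_diagonal, Complex.re_sum]
  refine sum_le_sum fun i _ => ?_
  have := mul_le_mul_of_nonneg_left (h i) (Complex.normSq_nonneg (v i))
  simp [Complex.normSq_apply] at this ⊢
  nlinarith [this]

theorem abs_spinVal_le (i : Fin (n + 1)) : |spinVal n i| ≤ (n : ℝ) / 2 := by
  have := fin_le_real i
  have h0 : (0 : ℝ) ≤ (i : ℕ) := Nat.cast_nonneg _
  rw [spinVal, abs_le]; constructor <;> linarith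

theorem gexp_zz_le {x y : Site N} {K : Matrix (Config n N) (Config n N) ℂ} (hK : K.IsHermitian) :
    gexp hK (opZ x * opZ y) ≤ ((n : ℝ) / 2) ^ 2 := by
  have e : opZ (n := n) x * opZ y =
      diagonal fun σ : Config n N => ((spinVal n (σ x) * spinVal n (σ y) : ℝ) : ℂ) := by
    simp [opZ, spin3, atSite_diagonal, diagonal_mul_diagonal]
  have h := gexp_diagonal_mono hK (fun σ : Config n N => spinVal n (σ x) * spinVal n (σ y))
    (fun _ => ((n : ℝ) / 2) ^ 2) fun σ => by
      refine le_trans (le_abs_self _) ?_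
      rw [abs_mul, sq]
      exact mul_le_mul (abs_spinVal_le _) (abs_spinVal_le _) (abs_nonneg _) (by positivity)
  rw [← e] at h
  refine h.trans (le_of_eq ?_)
  rw [← smul_one_eq_diagonal, gexp_smul, gexp_one, mul_one]

end Vale.Agent.P361
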